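import Mathlib

/-!
The weight, the dilated sums and the singular integral for an odd integer polynomial `P`.
-/

open Finset Polynomial

namespace Vale.Agent.P042.Sym

/-- The weight `P'(x) * (P(M) - P(x))`. -/
noncomputable def weight (P : ℤ[X]) (M : ℕ) (x : ℝ) : ℝ :=
  aeval x (derivative P) * (aeval (M : ℝ) P - aeval x P)

/-- The weighted cosine sum along the values of `P` at the multiples of `g` in `[1, M]`, times `g`. -/
noncomputable def dilSum (P : ℤ[X]) (M g : ℕ) (θ : ℝ) : ℝ :=
  g * ∑ n ∈ (Icc 1 M).filter (g ∣ ·),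
    weight P M n * Real.cos (2 * Real.pi * θ * aeval (n : ℝ) P)

/-- The singular integral. -/
noncomputable def singInt (P : ℤ[X]) (M : ℕ) (β : ℝ) : ℝ :=
  ∫ x in (0 : ℝ)..M, weight P M x * Real.cos (2 * Real.pi * β * aeval x P)

end Vale.Agent.P042.Sym
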