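import Vale.Agent.P042.Odd.Gauss
import Vale.Agent.P042.Sym.Basic

/-!
Normalised complete sums of `cos (2π a P(g x) / q)` for an odd integer polynomial `P`.
-/

open Finset Polynomial

namespace Vale.Agent.P042.Sym

open Vale.Agent.P042.Odd (sum_range_zmod cos_eq_re)

/-- The unnormalised complete sum. -/
noncomputable def gsum (P : ℤ[X]) (q : ℕ) [NeZero q] (a g : ZMod q) : ℂ :=
  ∑ x : ZMod q, ZMod.stdAddChar (a * aeval (g * x) P)

/-- The normalised complete cosine sum along the multiples of `g`. -/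
noncomputable def gauss (P : ℤ[X]) (q : ℕ) (a : ℤ) (g : ℕ) : ℝ :=
  (∑ x ∈ range q, Real.cos (2 * Real.pi * a * aeval ((g : ℝ) * x) P / q)) / q

lemma aeval_intCast {R : Type*} [CommRing R] (P : ℤ[X]) (n : ℤ) :
    aeval (n : R) P = ((P.eval n : ℤ) : R) := by
  have := aeval_algebraMap_apply R n P
  simpa using this

lemma aeval_natCast {R : Type*} [CommRing R] (P : ℤ[X]) (n : ℕ) :
    aeval (n : R) P = ((P.eval (n : ℤ) : ℤ) : R) := by
  rw [← aeval_intCast, Int.cast_natCast]

lemma aeval_neg_of_odd {R : Type*} [CommRing R] {P : ℤ[X]} (hP : P.comp (-X) = -P) (x : R) :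
    aeval (-x) P = -aeval x P := by
  have := congrArg (aeval x) hP
  simpa [aeval_comp] using this

lemma eval_zero_of_odd {P : ℤ[X]} (hP : P.comp (-X) = -P) : P.eval 0 = 0 := by
  have h := aeval_neg_of_odd (R := ℤ) hP 0
  simp only [neg_zero, aeval_def, algebraMap_int_eq, Int.cast_id] at h
  simp only [Polynomial.eval₂_at_zero, eq_intCast, Int.cast_id] at h
  rw [← coeff_zero_eq_eval_zero]
  omega

lemma gauss_eq_re (P : ℤ[X]) (q : ℕ) [NeZero q] (a : ℤ) (g : ℕ) :
    gauss P q a g = (gsum P q (a : ZMod q) (g : ZMod q)).re / q := by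
  rw [gauss, gsum, ← sum_range_zmod, Complex.re_sum]
  congr 1
  refine sum_congr rfl fun x _ => ?_
  rw [← Nat.cast_mul (α := ℝ), aeval_natCast, ← Nat.cast_mul (α := ZMod q), aeval_natCast,
    ← Int.cast_mul, ← cos_eq_re]
  push_cast
  ring_nf

lemma gsum_conj {P : ℤ[X]} (hP : P.comp (-X) = -P) {q : ℕ} [NeZero q] (a g : ZMod q) :
    starRingEnd ℂ (gsum P q a g) = gsum P q a g := by
  rw [gsum, map_sum]
  refine (Fintype.sum_equiv (Equiv.neg (ZMod q)) _ _ fun x => ?_)
  rw [Equiv.neg_apply, mul_neg, aeval_neg_of_odd hP, mul_neg, AddChar.map_neg_eq_inv]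
  have h : ‖ZMod.stdAddChar (a * aeval (g * x) P)‖ = 1 := Circle.norm_coe _
  rw [Complex.inv_eq_conj h]

lemma gsum_im {P : ℤ[X]} (hP : P.comp (-X) = -P) {q : ℕ} [NeZero q] (a g : ZMod q) :
    (gsum P q a g).im = 0 :=
  Complex.conj_eq_iff_im.1 (gsum_conj hP a g)

lemma gauss_unit (P : ℤ[X]) {q : ℕ} [NeZero q] (a : ℤ) (b c : ℕ) (u : ZMod q) (hu : IsUnit u)
    (h : (b : ZMod q) = u * c) : gauss P q a b = gauss P q a c := by
  obtain ⟨v, rfl⟩ := hu
  rw [gauss_eq_re, gauss_eq_re]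
  congr 2
  refine Fintype.sum_equiv (Units.mulLeft v) _ _ fun x => ?_
  rw [Units.mulLeft_apply, h, mul_comm (v : ZMod q) (c : ZMod q), mul_assoc]

/-- Dilations only matter through their greatest common divisor with the modulus. -/
lemma gauss_gcd (P : ℤ[X]) {q : ℕ} [NeZero q] (a : ℤ) (g : ℕ) :
    gauss P q a g = gauss P q a (g.gcd q) := by
  obtain ⟨d, hd, u, hu, h⟩ := ZMod.eq_unit_mul_divisor (g : ZMod q)
  have h1 : g ≡ u.val * d [MOD q] := by
    rw [← ZMod.natCast_eq_natCast_iff]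
    simp [h]
  have h2 : (u.val).Coprime q := (ZMod.isUnit_iff_coprime _ _).1 (by simpa using hu)
  have h3 : g.gcd q = d := by
    rw [h1.gcd_eq, Nat.Coprime.gcd_mul_left_cancel _ h2, Nat.gcd_eq_left hd]
  rw [h3, gauss_unit P a g d u hu h]

lemma eval_add_of_mul_eq_zero {R : Type*} [CommRing R] (P : ℤ[X]) (u v : R) (h : u * v = 0) :
    aeval (u + v) P + aeval (0 : R) P = aeval u P + aeval v P := by
  induction P using Polynomial.induction_on' with
  | add p q hp hq => simp only [map_add]; linear_combination hp + hq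
  | monomial n c =>
    simp only [aeval_monomial]
    have key : ∀ n : ℕ, (u + v) ^ n + (0 : R) ^ n = u ^ n + v ^ n := by
      intro n
      induction n with
      | zero => simp
      | succ n ih =>
        rcases n with _ | n
        · simp
        · rw [zero_pow (Nat.succ_ne_zero _), add_zero] at ih
          rw [zero_pow (Nat.succ_ne_zero _), add_zero, pow_succ _ (n + 1), ih]
          linear_combination (u ^ n + v ^ n) * h
    linear_combination (algebraMap ℤ R c) * key n

/-- Complete sums are multiplicative. -/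
lemma gauss_mul {P : ℤ[X]} (hP : P.comp (-X) = -P) {q r : ℕ} [NeZero q] [NeZero r]
    (hqr : q.Coprime r) {r' q' : ℤ} (hr : ((r' * r : ℤ) : ZMod q) = 1)
    (hq : ((q' * q : ℤ) : ZMod r) = 1) (a : ℤ) (g : ℕ) :
    gauss P (q * r) a g = gauss P q (a * r') g * gauss P r (a * q') g := by
  set φ : ZMod q × ZMod r → ZMod (q * r) :=
    fun p => ((r * p.1.val + q * p.2.val : ℕ) : ZMod (q * r))
  have hφ : Function.Bijective φ := by
    rw [Fintype.bijective_iff_injective_and_card]
    refine ⟨fun p p' h => ?_, by simp⟩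
    have h0 : r * p.1.val + q * p.2.val ≡ r * p'.1.val + q * p'.2.val [MOD q * r] :=
      (ZMod.natCast_eq_natCast_iff _ _ _).1 h
    have h1 := (ZMod.natCast_eq_natCast_iff _ _ _).2 (h0.of_mul_right r)
    have h2 := (ZMod.natCast_eq_natCast_iff _ _ _).2 (h0.of_mul_left q)
    push_cast [ZMod.natCast_zmod_val, ZMod.natCast_self, zero_mul, add_zero, zero_add] at h1 h2
    ext
    · exact ((ZMod.isUnit_iff_coprime r q).2 hqr.symm).mul_left_cancel h1
    · exact ((ZMod.isUnit_iff_coprime q r).2 hqr).mul_left_cancel h2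
  have hzero : P.eval 0 = 0 := eval_zero_of_odd hP
  have hru : IsUnit (r : ZMod q) := (ZMod.isUnit_iff_coprime r q).2 hqr.symm
  have hqu : IsUnit (q : ZMod r) := (ZMod.isUnit_iff_coprime q r).2 hqr
  have hsum : gsum P (q * r) (a : ZMod (q * r)) (g : ZMod (q * r)) =
      gsum P q ((a * r' : ℤ) : ZMod q) (g : ZMod q) *
        gsum P r ((a * q' : ℤ) : ZMod r) (g : ZMod r) := by
    simp only [gsum]
    have el : ∑ x : ZMod q, ZMod.stdAddChar (((a * r' : ℤ) : ZMod q) * aeval ((g : ZMod q) * x) P) =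
        ∑ x : ZMod q, ZMod.stdAddChar (((a * r' : ℤ) : ZMod q) *
          aeval ((g : ZMod q) * ((r : ZMod q) * x)) P) := by
      refine (Fintype.sum_equiv (Units.mulLeft hru.unit) _ _ fun x => ?_).symm
      rw [Units.mulLeft_apply, IsUnit.unit_spec]
    have er : ∑ x : ZMod r, ZMod.stdAddChar (((a * q' : ℤ) : ZMod r) * aeval ((g : ZMod r) * x) P) =
        ∑ x : ZMod r, ZMod.stdAddChar (((a * q' : ℤ) : ZMod r) *
          aeval ((g : ZMod r) * ((q : ZMod r) * x)) P) := by
      refine (Fintype.sum_equiv (Units.mulLeft hqu.unit) _ _ fun x => ?_).symm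
      rw [Units.mulLeft_apply, IsUnit.unit_spec]
    rw [el, er, sum_mul_sum, ← sum_product', univ_product_univ]
    refine (Fintype.sum_equiv (Equiv.ofBijective φ hφ) _ _ fun p => ?_).symm
    obtain ⟨x, y⟩ := p
    simp only [Equiv.ofBijective_apply, φ]
    obtain ⟨w₁, hw₁⟩ : (r : ℤ) ∣ P.eval ((g : ℤ) * ((r : ℤ) * x.val)) := by
      have := P.sub_dvd_eval_sub ((g : ℤ) * ((r : ℤ) * x.val)) 0
      rw [sub_zero, hzero, sub_zero] at this
      exact dvd_trans ((dvd_mul_right (r : ℤ) x.val).mul_left g) this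
    obtain ⟨w₂, hw₂⟩ : (q : ℤ) ∣ P.eval ((g : ℤ) * ((q : ℤ) * y.val)) := by
      have := P.sub_dvd_eval_sub ((g : ℤ) * ((q : ℤ) * y.val)) 0
      rw [sub_zero, hzero, sub_zero] at this
      exact dvd_trans ((dvd_mul_right (q : ℤ) y.val).mul_left g) this
    have e1 : ((a * r' : ℤ) : ZMod q) * aeval ((g : ZMod q) * ((r : ZMod q) * x)) P =
        ((a * w₁ : ℤ) : ZMod q) := by
      rw [show (g : ZMod q) * ((r : ZMod q) * x) = (((g : ℤ) * ((r : ℤ) * x.val) : ℤ) : ZMod q) by
        push_cast [ZMod.natCast_zmod_val]; ring, aeval_intCast, hw₁]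
      push_cast at hr ⊢
      linear_combination (a : ZMod q) * (w₁ : ZMod q) * hr
    have e2 : ((a * q' : ℤ) : ZMod r) * aeval ((g : ZMod r) * ((q : ZMod r) * y)) P =
        ((a * w₂ : ℤ) : ZMod r) := by
      rw [show (g : ZMod r) * ((q : ZMod r) * y) = (((g : ℤ) * ((q : ℤ) * y.val) : ℤ) : ZMod r) by
        push_cast [ZMod.natCast_zmod_val]; ring, aeval_intCast, hw₂]
      push_cast at hq ⊢
      linear_combination (a : ZMod r) * (w₂ : ZMod r) * hq
    have e3 : (a : ZMod (q * r)) * aeval ((g : ZMod (q * r)) *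
        ((r * x.val + q * y.val : ℕ) : ZMod (q * r))) P =
        ((a * ((r : ℤ) * w₁) + a * ((q : ℤ) * w₂) : ℤ) : ZMod (q * r)) := by
      have huv : ((g : ZMod (q * r)) * ((r : ZMod (q * r)) * (x.val : ZMod (q * r)))) *
          ((g : ZMod (q * r)) * ((q : ZMod (q * r)) * (y.val : ZMod (q * r)))) = 0 := by
        have h0 : (q : ZMod (q * r)) * (r : ZMod (q * r)) = 0 := by
          rw [← Nat.cast_mul, ZMod.natCast_self]
        linear_combination ((g : ZMod (q * r)) ^ 2 * (x.val : ZMod (q * r)) *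
          (y.val : ZMod (q * r))) * h0
      have h := eval_add_of_mul_eq_zero P _ _ huv
      rw [show (0 : ZMod (q * r)) = ((0 : ℤ) : ZMod (q * r)) by simp, aeval_intCast, hzero,
        Int.cast_zero, add_zero, ← mul_add] at h
      rw [Nat.cast_add, Nat.cast_mul, Nat.cast_mul, h]
      have c1 : aeval ((g : ZMod (q * r)) * ((r : ZMod (q * r)) * (x.val : ZMod (q * r)))) P =
          (((r : ℤ) * w₁ : ℤ) : ZMod (q * r)) := by
        rw [← hw₁, ← aeval_intCast]; push_cast; ring_nf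
      have c2 : aeval ((g : ZMod (q * r)) * ((q : ZMod (q * r)) * (y.val : ZMod (q * r)))) P =
          (((q : ℤ) * w₂ : ℤ) : ZMod (q * r)) := by
        rw [← hw₂, ← aeval_intCast]; push_cast; ring_nf
      rw [c1, c2]
      push_cast
      ring
    rw [e1, e2, e3, ZMod.stdAddChar_coe, ZMod.stdAddChar_coe, ZMod.stdAddChar_coe, ← Complex.exp_add]
    congr 1
    have hq : (q : ℂ) ≠ 0 := NeZero.ne _
    have hr : (r : ℂ) ≠ 0 := NeZero.ne _
    push_cast
    field_simp
  rw [gauss_eq_re, gauss_eq_re, gauss_eq_re, hsum, Complex.mul_re, gsum_im hP]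
  push_cast
  field_simp
  ring

lemma abs_gauss_le_one (P : ℤ[X]) (q : ℕ) (a : ℤ) (g : ℕ) : |gauss P q a g| ≤ 1 := by
  rcases Nat.eq_zero_or_pos q with rfl | hq
  · simp [gauss]
  rw [gauss, abs_div, Nat.abs_cast, div_le_one (by exact_mod_cast hq)]
  refine (abs_sum_le_sum_abs _ _).trans ?_
  simpa using sum_le_sum (s := range q) fun x (_ : x ∈ range q) =>
    Real.abs_cos_le_one (2 * Real.pi * a * aeval ((g : ℝ) * x) P / q)

/-- The sum is trivial once the modulus divides every value. -/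
lemma gauss_eq_one (P : ℤ[X]) {q : ℕ} (hq : 0 < q) (a : ℤ) (g : ℕ)
    (h : ∀ x : ℕ, (q : ℤ) ∣ a * P.eval ((g : ℤ) * x)) : gauss P q a g = 1 := by
  have hq' : (q : ℝ) ≠ 0 := by positivity
  rw [gauss, div_eq_one_iff_eq hq', sum_congr rfl fun x _ => ?_, sum_const, card_range,
    nsmul_eq_mul, mul_one]
  obtain ⟨z, hz⟩ := h x
  have hz' : (a : ℝ) * aeval ((g : ℝ) * x) P = (q : ℝ) * z := by
    rw [← Nat.cast_mul, aeval_natCast]
    exact_mod_cast hz
  rw [show 2 * Real.pi * a * aeval ((g : ℝ) * x) P / q = (z : ℝ) * (2 * Real.pi) by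
    rw [mul_assoc, hz']; field_simp]
  exact Real.cos_int_mul_two_pi z

end Vale.Agent.P042.Sym
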