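import Vale.Agent.P042.Odd.Major
import Vale.Agent.P042.Sym.Gauss

/-!
For an odd integer polynomial, the singular integral is a Fejér kernel and the dilated sums on the
major arcs are the complete sums times the singular integral.
-/

open Finset Polynomial

namespace Vale.Agent.P042.Sym

open Vale.Agent.P042.Odd (abs_sum_periodic_le abs_sum_sub_integral_le major_arith sin_eq_im
  sum_range_zmod)

/-- The sum of the absolute values of the coefficients. -/
noncomputable def absCoeff (Q : ℤ[X]) : ℝ := ∑ i ∈ range (Q.natDegree + 1), |(Q.coeff i : ℝ)|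

lemma absCoeff_nonneg (Q : ℤ[X]) : 0 ≤ absCoeff Q := sum_nonneg fun _ _ => abs_nonneg _

lemma abs_aeval_le (Q : ℤ[X]) {n M : ℕ} (hn : Q.natDegree ≤ n) (hM : 1 ≤ M) {x : ℝ} (hx : 0 ≤ x)
    (hxM : x ≤ M) : |aeval x Q| ≤ absCoeff Q * (M : ℝ) ^ n := by
  have hM1 : (1 : ℝ) ≤ M := by exact_mod_cast hM
  rw [aeval_eq_sum_range, absCoeff, sum_mul]
  refine (abs_sum_le_sum_abs _ _).trans (sum_le_sum fun i hi => ?_)
  rw [zsmul_eq_mul, abs_mul, abs_of_nonneg (pow_nonneg hx i)]
  refine mul_le_mul_of_nonneg_left ?_ (abs_nonneg _)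
  exact (pow_le_pow_left₀ hx hxM i).trans
    (pow_le_pow_right₀ hM1 ((Nat.le_of_lt_succ (mem_range.1 hi)).trans hn))

lemma abs_weight_le (P : ℤ[X]) {M : ℕ} (hM : 1 ≤ M) {x : ℝ} (hx : 0 ≤ x) (hxM : x ≤ M) :
    |weight P M x| ≤
      2 * absCoeff P * absCoeff (derivative P) * (M : ℝ) ^ (2 * P.natDegree - 1) := by
  rcases Nat.eq_zero_or_pos P.natDegree with h0 | hd
  · simp [weight, derivative_of_natDegree_zero h0, absCoeff]
  have h1 := abs_aeval_le (derivative P) (natDegree_derivative_le P) hM hx hxM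
  have h2 := abs_aeval_le P le_rfl hM hx hxM
  have h3 := abs_aeval_le P le_rfl hM (Nat.cast_nonneg M) le_rfl
  have e : (M : ℝ) ^ (2 * P.natDegree - 1) =
      (M : ℝ) ^ (P.natDegree - 1) * (M : ℝ) ^ P.natDegree := by
    rw [← pow_add]; congr 1; omega
  rw [weight, abs_mul, e]
  refine (mul_le_mul h1 ((abs_sub _ _).trans (add_le_add h3 h2)) (abs_nonneg _)
    (mul_nonneg (absCoeff_nonneg _) (by positivity))).trans (le_of_eq ?_)
  ring

lemma weight_self (P : ℤ[X]) (M : ℕ) : weight P M (M : ℝ) = 0 := by simp [weight]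

lemma continuous_weight_cos (P : ℤ[X]) (M : ℕ) (β : ℝ) :
    Continuous fun x : ℝ => weight P M x * Real.cos (2 * Real.pi * β * aeval x P) := by
  unfold weight; fun_prop

lemma aeval_zero_of_odd {P : ℤ[X]} (hP : P.comp (-X) = -P) : aeval (0 : ℝ) P = 0 := by
  have h := aeval_natCast (R := ℝ) P 0
  simpa [eval_zero_of_odd hP] using h

theorem singInt_zero {P : ℤ[X]} (hP : P.comp (-X) = -P) (M : ℕ) :
    singInt P M 0 = (aeval (M : ℝ) P) ^ 2 / 2 := by
  have hd : ∀ x ∈ Set.uIcc (0 : ℝ) M, HasDerivAt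
      (fun x : ℝ => -((aeval (M : ℝ) P - aeval x P) ^ 2 / 2)) (weight P M x) x := by
    intro x _
    refine (((((P.hasDerivAt_aeval x).const_sub (aeval (M : ℝ) P)).pow 2).div_const 2).neg).congr_deriv ?_
    simp only [weight]
    push_cast
    ring
  rw [singInt]
  simp only [mul_zero, zero_mul, Real.cos_zero, mul_one]
  rw [intervalIntegral.integral_eq_sub_of_hasDerivAt hd
    ((by unfold weight; fun_prop : Continuous fun x : ℝ => weight P M x).intervalIntegrable _ _)]
  simp [aeval_zero_of_odd hP]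

/-- The singular integral at a nonzero frequency, by an elementary antiderivative. -/
theorem singInt_eq {P : ℤ[X]} (hP : P.comp (-X) = -P) (M : ℕ) {β : ℝ} (hβ : β ≠ 0) :
    singInt P M β =
      (1 - Real.cos (2 * Real.pi * β * aeval (M : ℝ) P)) / (2 * Real.pi * β) ^ 2 := by
  set b := 2 * Real.pi * β
  have hb : b ≠ 0 := by positivity
  have hd : ∀ x ∈ Set.uIcc (0 : ℝ) M, HasDerivAt
      (fun x : ℝ => (aeval (M : ℝ) P - aeval x P) * Real.sin (b * aeval x P) / b
        - Real.cos (b * aeval x P) / b ^ 2)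
      (weight P M x * Real.cos (b * aeval x P)) x := by
    intro x _
    have hp := P.hasDerivAt_aeval x
    refine ((((hp.const_sub (aeval (M : ℝ) P)).mul (hp.const_mul b).sin).div_const b).sub
      ((hp.const_mul b).cos.div_const (b ^ 2))).congr_deriv ?_
    simp only [weight]
    field_simp
    ring
  rw [singInt, intervalIntegral.integral_eq_sub_of_hasDerivAt hd
    ((continuous_weight_cos P M β).intervalIntegrable _ _)]
  simp only [aeval_zero_of_odd hP, sub_self, zero_mul, zero_div, mul_zero, Real.sin_zero,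
    Real.cos_zero]
  field_simp
  ring

/-- `(1 - cos (b P(M))) / b ^ 2` is nonnegative. -/
theorem singInt_nonneg {P : ℤ[X]} (hP : P.comp (-X) = -P) (M : ℕ) (β : ℝ) :
    0 ≤ singInt P M β := by
  rcases eq_or_ne β 0 with rfl | hβ
  · rw [singInt_zero hP]; positivity
  · rw [singInt_eq hP M hβ]
    exact div_nonneg (sub_nonneg.2 (Real.cos_le_one _)) (sq_nonneg _)

theorem singInt_le (P : ℤ[X]) : ∃ C : ℝ, ∀ (M : ℕ) (β : ℝ), 1 ≤ M →
    singInt P M β ≤ C * (M : ℝ) ^ (2 * P.natDegree) := by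
  refine ⟨2 * absCoeff P * absCoeff (derivative P), fun M β hM => ?_⟩
  refine (le_abs_self _).trans ?_
  rw [singInt, ← Real.norm_eq_abs]
  refine (intervalIntegral.norm_integral_le_of_norm_le_const
    (C := 2 * absCoeff P * absCoeff (derivative P) * (M : ℝ) ^ (2 * P.natDegree - 1))
    fun x hx => ?_).trans ?_
  · rw [Set.uIoc_of_le (Nat.cast_nonneg M)] at hx
    rw [Real.norm_eq_abs, abs_mul]
    exact (mul_le_mul (abs_weight_le P hM hx.1.le hx.2) (Real.abs_cos_le_one _) (abs_nonneg _)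
      ((abs_nonneg _).trans (abs_weight_le P hM hx.1.le hx.2))).trans (mul_one _).le
  · rw [sub_zero, Nat.abs_cast]
    rcases Nat.eq_zero_or_pos P.natDegree with h0 | hd
    · simp [derivative_of_natDegree_zero h0, absCoeff]
    · rw [mul_assoc, ← pow_succ, Nat.sub_add_cancel (by omega)]

/-- The constant of the Lipschitz bound. -/
noncomputable def lipC (P : ℤ[X]) : ℝ :=
  1 + 2 * absCoeff P * absCoeff (derivative P) +
    2 * absCoeff P * absCoeff (derivative (derivative P)) + absCoeff (derivative P) ^ 2 +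
    16 * absCoeff P * absCoeff (derivative P) ^ 2

/-- The derivative of the weight. -/
lemma abs_weight_deriv_le (P : ℤ[X]) {M : ℕ} (hM : 1 ≤ M) (hk : 1 ≤ P.natDegree) {t : ℝ}
    (h0 : 0 ≤ t) (h1 : t ≤ M) :
    |aeval t (derivative (derivative P)) * (aeval (M : ℝ) P - aeval t P) -
        aeval t (derivative P) * aeval t (derivative P)| ≤
      (2 * absCoeff P * absCoeff (derivative (derivative P)) + absCoeff (derivative P) ^ 2) *
        (M : ℝ) ^ (2 * P.natDegree - 2) := by
  set d := P.natDegree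
  have e0 := abs_aeval_le P le_rfl hM h0 h1
  have eM := abs_aeval_le P le_rfl hM (Nat.cast_nonneg M) le_rfl
  have e1 := abs_aeval_le (derivative P) (natDegree_derivative_le P) hM h0 h1
  have hM1 : (1 : ℝ) ≤ M := by exact_mod_cast hM
  refine (abs_sub _ _).trans ?_
  rw [abs_mul, abs_mul, add_mul]
  refine add_le_add ?_ ?_
  · rcases Nat.lt_or_ge d 2 with hd | hd
    · have : (derivative P).natDegree = 0 := by
        have := natDegree_derivative_le P; omega
      simp [derivative_of_natDegree_zero this, absCoeff]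
    · have e2 := abs_aeval_le (derivative (derivative P))
        ((natDegree_derivative_le _).trans (Nat.sub_le_sub_right (natDegree_derivative_le P) 1))
        hM h0 h1
      refine (mul_le_mul e2 ((abs_sub _ _).trans (add_le_add eM e0)) (abs_nonneg _)
        (mul_nonneg (absCoeff_nonneg _) (by positivity))).trans (le_of_eq ?_)
      rw [show 2 * d - 2 = (d - 1 - 1) + d by omega, pow_add]
      ring
  · refine (mul_le_mul e1 e1 (abs_nonneg _)
      (mul_nonneg (absCoeff_nonneg _) (by positivity))).trans (le_of_eq ?_)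
    rw [show 2 * d - 2 = (d - 1) + (d - 1) by omega, pow_add]
    ring

/-- The weight times a trigonometric function is Lipschitz. -/
lemma weight_mul_lip (P : ℤ[X]) {M : ℕ} (hk : 1 ≤ P.natDegree) (hM : 1 ≤ M) (β : ℝ)
    (T : ℝ → ℝ) (T' : ℝ → ℝ) (hT : ∀ y, HasDerivAt T (T' y) y) (hT1 : ∀ y, |T y| ≤ 1)
    (hT'1 : ∀ y, |T' y| ≤ 1) :
    ∀ x ∈ Set.Icc (0 : ℝ) M, ∀ y ∈ Set.Icc (0 : ℝ) M,
      |weight P M x * T (2 * Real.pi * β * aeval x P) -
          weight P M y * T (2 * Real.pi * β * aeval y P)| ≤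
        lipC P * (1 + |β| * (M : ℝ) ^ P.natDegree) * (M : ℝ) ^ (2 * P.natDegree - 2) * |x - y| := by
  intro x hx y hy
  set b := 2 * Real.pi * β
  have hd : ∀ t ∈ Set.Icc (0 : ℝ) M, HasDerivWithinAt
      (fun t => weight P M t * T (b * aeval t P))
      ((aeval t (derivative (derivative P)) * (aeval (M : ℝ) P - aeval t P) -
          aeval t (derivative P) * aeval t (derivative P)) * T (b * aeval t P) +
        weight P M t * (T' (b * aeval t P) * (b * aeval t (derivative P))))
      (Set.Icc 0 M) t := by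
    intro t _
    have h1 : HasDerivAt (fun t => weight P M t)
        (aeval t (derivative (derivative P)) * (aeval (M : ℝ) P - aeval t P) -
          aeval t (derivative P) * aeval t (derivative P)) t := by
      refine (((derivative P).hasDerivAt_aeval t).mul
        ((P.hasDerivAt_aeval t).const_sub (aeval (M : ℝ) P))).congr_deriv ?_
      ring
    exact (h1.mul ((hT (b * aeval t P)).comp t
      ((P.hasDerivAt_aeval t).const_mul b))).hasDerivWithinAt
  have hbound : ∀ t ∈ Set.Icc (0 : ℝ) M,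
      ‖(aeval t (derivative (derivative P)) * (aeval (M : ℝ) P - aeval t P) -
          aeval t (derivative P) * aeval t (derivative P)) * T (b * aeval t P) +
        weight P M t * (T' (b * aeval t P) * (b * aeval t (derivative P)))‖ ≤
        lipC P * (1 + |β| * (M : ℝ) ^ P.natDegree) * (M : ℝ) ^ (2 * P.natDegree - 2) := by
    intro t ht
    set d := P.natDegree
    set A0 := absCoeff P
    set A1 := absCoeff (derivative P)
    set A2 := absCoeff (derivative (derivative P))
    have hA0 : 0 ≤ A0 := absCoeff_nonneg _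
    have hA1 : 0 ≤ A1 := absCoeff_nonneg _
    have hA2 : 0 ≤ A2 := absCoeff_nonneg _
    have hA := abs_weight_deriv_le P hM hk ht.1 ht.2
    have hW := abs_weight_le P hM ht.1 ht.2
    have hB : |b * aeval t (derivative P)| ≤ 8 * |β| * (A1 * (M : ℝ) ^ (d - 1)) := by
      rw [abs_mul]
      refine mul_le_mul ?_ (abs_aeval_le _ (natDegree_derivative_le P) hM ht.1 ht.2)
        (abs_nonneg _) (by positivity)
      simp only [b, abs_mul, abs_two, abs_of_pos Real.pi_pos]
      nlinarith [Real.pi_lt_four, abs_nonneg β]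
    rw [Real.norm_eq_abs]
    refine (abs_add_le _ _).trans ?_
    rw [abs_mul, abs_mul, abs_mul (T' _)]
    have e1 := mul_le_mul hA (hT1 (b * aeval t P)) (abs_nonneg _)
      ((abs_nonneg _).trans hA)
    have e2 := mul_le_mul hW (mul_le_mul (hT'1 (b * aeval t P)) hB (abs_nonneg _) zero_le_one)
      (by positivity) ((abs_nonneg _).trans hW)
    refine (add_le_add e1 e2).trans ?_
    have e3 : 2 * A0 * A1 * (M : ℝ) ^ (2 * d - 1) * (1 * (8 * |β| * (A1 * (M : ℝ) ^ (d - 1)))) =
        16 * A0 * A1 ^ 2 * (|β| * (M : ℝ) ^ d) * (M : ℝ) ^ (2 * d - 2) := by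
      have : (M : ℝ) ^ (2 * d - 1) * (M : ℝ) ^ (d - 1) =
          (M : ℝ) ^ d * (M : ℝ) ^ (2 * d - 2) := by
        rw [← pow_add, ← pow_add]; congr 1; omega
      linear_combination (16 * A0 * A1 ^ 2 * |β|) * this
    rw [e3, mul_one, ← add_mul]
    refine mul_le_mul_of_nonneg_right ?_ (by positivity)
    have hX : 0 ≤ |β| * (M : ℝ) ^ d := by positivity
    simp only [lipC]
    nlinarith [mul_nonneg (mul_nonneg hA0 hA1) hX, mul_nonneg (mul_nonneg hA0 hA2) hX,
      mul_nonneg (sq_nonneg A1) hX, mul_nonneg hA0 (sq_nonneg A1), mul_nonneg hA0 hA1]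
  have := Convex.norm_image_sub_le_of_norm_hasDerivWithin_le hd hbound (convex_Icc 0 _) hy hx
  rw [Real.norm_eq_abs, Real.norm_eq_abs] at this
  exact this

/-- The complete sine sum vanishes. -/
lemma sum_sin_eq_zero {P : ℤ[X]} (hP : P.comp (-X) = -P) (q : ℕ) [NeZero q] (a : ℤ) (g : ℕ) :
    ∑ x ∈ range q, Real.sin (2 * Real.pi * a * aeval ((g : ℝ) * x) P / q) = 0 := by
  rw [← gsum_im hP (a : ZMod q) (g : ZMod q), gsum, ← sum_range_zmod, Complex.im_sum]
  refine sum_congr rfl fun x _ => ?_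
  rw [← Nat.cast_mul (α := ℝ), aeval_natCast, ← Nat.cast_mul (α := ZMod q), aeval_natCast,
    ← Int.cast_mul, ← sin_eq_im]
  push_cast
  ring_nf

/-- Periodicity of the arithmetic factor. -/
lemma trig_periodic (T : ℝ → ℝ) (hT : ∀ (x : ℝ) (m : ℤ), T (x + m * (2 * Real.pi)) = T x)
    (P : ℤ[X]) (g q : ℕ) [NeZero q] (a : ℤ) (n : ℕ) :
    (if g ∣ n + g * q then
        (g : ℝ) * T (2 * Real.pi * a * aeval ((n + g * q : ℕ) : ℝ) P / q) else 0) =
      if g ∣ n then (g : ℝ) * T (2 * Real.pi * a * aeval (n : ℝ) P / q) else 0 := by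
  simp only [← Nat.dvd_add_iff_left (dvd_mul_right g q)]
  split_ifs
  · congr 1
    have h : (q : ℤ) ∣ a * (P.eval ((n + g * q : ℕ) : ℤ) - P.eval (n : ℤ)) := by
      refine dvd_mul_of_dvd_right (dvd_trans ?_ (Polynomial.sub_dvd_eval_sub _ _ P)) a
      exact ⟨(g : ℤ), by push_cast; ring⟩
    obtain ⟨m, hm⟩ := h
    have hm' : (a : ℝ) * aeval ((n + g * q : ℕ) : ℝ) P = a * aeval (n : ℝ) P + q * m := by
      have := congrArg (fun z : ℤ => (z : ℝ)) hm
      push_cast at this
      rw [aeval_natCast, aeval_natCast]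
      push_cast
      linarith
    rw [← hT (2 * Real.pi * a * aeval (n : ℝ) P / q) m]
    congr 1
    have hq : (q : ℝ) ≠ 0 := NeZero.ne _
    field_simp
    linear_combination hm'
  · rfl

lemma sum_dilated (T : ℝ → ℝ) (P : ℤ[X]) (g q : ℕ) (hg : 1 ≤ g) (a : ℤ) :
    ∑ n ∈ range (g * q),
      (if g ∣ n then (g : ℝ) * T (2 * Real.pi * a * aeval (n : ℝ) P / q) else 0) =
      g * ∑ x ∈ range q, T (2 * Real.pi * a * aeval ((g : ℝ) * x) P / q) := by
  rw [← sum_filter, mul_sum]
  refine sum_nbij' (fun n => n / g) (fun x => g * x) ?_ ?_ ?_ ?_ ?_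
  · intro n hn
    simp only [mem_filter, mem_range] at hn ⊢
    exact Nat.div_lt_of_lt_mul hn.1
  · intro x hx
    simp only [mem_filter, mem_range] at hx ⊢
    exact ⟨Nat.mul_lt_mul_of_pos_left hx (by omega), dvd_mul_right _ _⟩
  · intro n hn
    simp only [mem_filter, mem_range] at hn
    exact Nat.mul_div_cancel' hn.2
  · intro x _
    exact Nat.mul_div_cancel_left x (by omega)
  · intro n hn
    simp only [mem_filter] at hn
    obtain ⟨x, rfl⟩ := hn.2
    rw [Nat.mul_div_cancel_left x (by omega)]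
    push_cast
    rfl

/-- The dilated sum split into its periodic and its smooth factors. -/
lemma dilSum_eq {P : ℤ[X]} {M g q : ℕ} (a z : ℤ) (β θ : ℝ) (hθ : θ = (a : ℝ) / q + β + z) :
    dilSum P M g θ = ∑ n ∈ Icc 1 M,
      ((if g ∣ n then (g : ℝ) * Real.cos (2 * Real.pi * a * aeval (n : ℝ) P / q) else 0) *
          (weight P M n * Real.cos (2 * Real.pi * β * aeval (n : ℝ) P)) -
        (if g ∣ n then (g : ℝ) * Real.sin (2 * Real.pi * a * aeval (n : ℝ) P / q) else 0) *
          (weight P M n * Real.sin (2 * Real.pi * β * aeval (n : ℝ) P))) := by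
  rw [dilSum, mul_sum, sum_filter]
  refine sum_congr rfl fun n _ => ?_
  split_ifs
  · have e : 2 * Real.pi * θ * aeval (n : ℝ) P = (2 * Real.pi * a * aeval (n : ℝ) P / q +
        2 * Real.pi * β * aeval (n : ℝ) P) +
        ((z * P.eval (n : ℤ) : ℤ) : ℝ) * (2 * Real.pi) := by
      rw [hθ, aeval_natCast]; push_cast; ring
    rw [e, Real.cos_add_int_mul_two_pi, Real.cos_add]
    ring
  · simp

/-- A boundary term. -/
lemma abs_term_le (P : ℤ[X]) {M g : ℕ} (hM : 1 ≤ M) (f T : ℝ) (hf : |f| ≤ g) (hT : |T| ≤ 1) :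
    |f * (weight P M ((0 : ℕ) : ℝ) * T)| ≤
      g * (2 * absCoeff P * absCoeff (derivative P) * (M : ℝ) ^ (2 * P.natDegree - 1)) := by
  have hw := abs_weight_le P hM (le_refl (0 : ℝ)) (Nat.cast_nonneg M)
  rw [abs_mul, abs_mul, Nat.cast_zero]
  refine mul_le_mul hf ?_ (by positivity) (Nat.cast_nonneg _)
  exact (mul_le_mul hw hT (abs_nonneg _) ((abs_nonneg _).trans hw)).trans (mul_one _).le

/-- Major arc approximation. -/
theorem dilSum_major {P : ℤ[X]} (hP : P.comp (-X) = -P) (hk : 1 ≤ P.natDegree) :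
    ∃ C : ℝ, ∀ (M g q : ℕ), 1 ≤ M → 1 ≤ g → 1 ≤ q →
    ∀ (a z : ℤ) (β θ : ℝ), θ = (a : ℝ) / q + β + z →
    |dilSum P M g θ - gauss P q a g * singInt P M β| ≤
      C * (g : ℝ) ^ 2 * q * (1 + |β| * (M : ℝ) ^ P.natDegree) *
        (M : ℝ) ^ (2 * P.natDegree - 1) := by
  refine ⟨6 * lipC P, fun M g q hM hg hq a z β θ hθ => ?_⟩
  have : NeZero q := ⟨by omega⟩
  have hq1 : (1 : ℝ) ≤ q := by exact_mod_cast hq
  have hg1 : (1 : ℝ) ≤ g := by exact_mod_cast hg
  set μ := gauss P q a g
  have hμ1 : |μ| ≤ 1 := by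
    simp only [μ, gauss, abs_div, Nat.abs_cast]
    rw [div_le_one (by linarith)]
    refine (abs_sum_le_sum_abs _ _).trans ?_
    simpa using sum_le_sum (s := range q) fun x (_ : x ∈ range q) =>
      Real.abs_cos_le_one (2 * Real.pi * a * aeval ((g : ℝ) * x) P / q)
  set f : ℕ → ℝ := fun n =>
    if g ∣ n then (g : ℝ) * Real.cos (2 * Real.pi * a * aeval (n : ℝ) P / q) else 0
  set h : ℕ → ℝ := fun n =>
    if g ∣ n then (g : ℝ) * Real.sin (2 * Real.pi * a * aeval (n : ℝ) P / q) else 0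
  set φc : ℝ → ℝ := fun x => weight P M x * Real.cos (2 * Real.pi * β * aeval x P)
  set φs : ℝ → ℝ := fun x => weight P M x * Real.sin (2 * Real.pi * β * aeval x P)
  set Λ := lipC P * (1 + |β| * (M : ℝ) ^ P.natDegree) * (M : ℝ) ^ (2 * P.natDegree - 2)
  have hfB : ∀ n, |f n| ≤ g := fun n => by
    simp only [f]; split_ifs
    · rw [abs_mul, Nat.abs_cast]
      exact mul_le_of_le_one_right (Nat.cast_nonneg _) (Real.abs_cos_le_one _)
    · simp
  have hhB : ∀ n, |h n| ≤ g := fun n => by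
    simp only [h]; split_ifs
    · rw [abs_mul, Nat.abs_cast]
      exact mul_le_of_le_one_right (Nat.cast_nonneg _) (Real.abs_sin_le_one _)
    · simp
  have hsplit : dilSum P M g θ = ∑ n ∈ Icc 1 M, (f n * φc n - h n * φs n) :=
    dilSum_eq a z β θ hθ
  set G : ℕ → ℝ := fun n => f n * φc n - h n * φs n
  have hGM : G M = 0 := by simp [G, φc, φs, weight_self]
  have hrange : ∑ n ∈ Icc 1 M, G n = ∑ n ∈ range M, G n - G 0 := by
    have : range (M + 1) = insert 0 (Icc 1 M) := by ext n; simp; omega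
    have h1 : ∑ n ∈ range (M + 1), G n = G 0 + ∑ n ∈ Icc 1 M, G n := by
      rw [this, sum_insert (by simp)]
    rw [sum_range_succ, hGM, add_zero] at h1
    linarith
  set Y := 2 * absCoeff P * absCoeff (derivative P) * (M : ℝ) ^ (2 * P.natDegree - 1)
  have hG0 : |G 0| ≤ 2 * (g : ℝ) * Y := by
    have e1 := abs_term_le P hM (f 0) _ (hfB 0)
      (Real.abs_cos_le_one (2 * Real.pi * β * aeval ((0 : ℕ) : ℝ) P))
    have e2 := abs_term_le P hM (h 0) _ (hhB 0)
      (Real.abs_sin_le_one (2 * Real.pi * β * aeval ((0 : ℕ) : ℝ) P))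
    exact (abs_sub _ _).trans (by linarith)
  have hlipc := weight_mul_lip P hk hM β Real.cos (fun y => -Real.sin y) Real.hasDerivAt_cos
    Real.abs_cos_le_one (fun y => by rw [abs_neg]; exact Real.abs_sin_le_one y)
  have hlips := weight_mul_lip P hk hM β Real.sin Real.cos Real.hasDerivAt_sin
    Real.abs_sin_le_one Real.abs_cos_le_one
  have hstep : ∀ (φ : ℝ → ℝ), (∀ x ∈ Set.Icc (0 : ℝ) M, ∀ y ∈ Set.Icc (0 : ℝ) M,
      |φ x - φ y| ≤ Λ * |x - y|) → ∀ n < M, |φ ((n + 1 : ℕ) : ℝ) - φ (n : ℝ)| ≤ Λ := by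
    intro φ hφ n hn
    have hn' : (n : ℝ) + 1 ≤ M := by exact_mod_cast hn
    have h0 : (0 : ℝ) ≤ n := Nat.cast_nonneg n
    refine (hφ _ ⟨Nat.cast_nonneg _, by push_cast; linarith⟩ _ ⟨h0, by linarith⟩).trans ?_
    simp
  have hgq : 0 < g * q := Nat.mul_pos hg hq
  have hA := abs_sum_periodic_le f (g * q) hgq
    (fun n => trig_periodic Real.cos Real.cos_add_int_mul_two_pi P g q a n) g hfB μ
    (by
      rw [sum_dilated Real.cos P g q hg a]
      simp only [μ, gauss]
      push_cast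
      field_simp)
    (fun n => φc n) Λ M (hstep φc hlipc) (by simp [φc, weight_self])
  have hS := abs_sum_periodic_le h (g * q) hgq
    (fun n => trig_periodic Real.sin Real.sin_add_int_mul_two_pi P g q a n) g hhB 0
    (by rw [sum_dilated Real.sin P g q hg a, sum_sin_eq_zero hP]; simp)
    (fun n => φs n) Λ M (hstep φs hlips) (by simp [φs, weight_self])
  have hlipC : 1 ≤ lipC P := by
    have h0 := absCoeff_nonneg P
    have h1 := absCoeff_nonneg (derivative P)
    have h2 := absCoeff_nonneg (derivative (derivative P))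
    simp only [lipC]
    nlinarith [mul_nonneg h0 h1, mul_nonneg h0 h2, mul_nonneg h0 (sq_nonneg (absCoeff (derivative P)))]
  have hΛ : 0 ≤ Λ := by
    have : 0 ≤ lipC P := by linarith
    positivity
  have hI := abs_sum_sub_integral_le φc (continuous_weight_cos P M β) M Λ hΛ hlipc
  have hIdef : singInt P M β = ∫ x in (0 : ℝ)..M, φc x := rfl
  have key : dilSum P M g θ - μ * singInt P M β =
      (∑ n ∈ range M, (f n - μ) * φc n) - (∑ n ∈ range M, (h n - 0) * φs n) - G 0 +
        μ * (∑ n ∈ range M, φc n - ∫ x in (0 : ℝ)..M, φc x) := by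
    rw [hsplit, hrange, hIdef]
    simp only [G, sub_zero, sub_mul, sum_sub_distrib, ← mul_sum]
    ring
  have hX : (M : ℝ) * Λ =
      lipC P * (1 + |β| * (M : ℝ) ^ P.natDegree) * (M : ℝ) ^ (2 * P.natDegree - 1) := by
    rw [show 2 * P.natDegree - 1 = (2 * P.natDegree - 2) + 1 by omega, pow_succ]
    simp only [Λ]; ring
  rw [hX] at hA hS hI
  rw [abs_zero, add_zero] at hS
  push_cast at hA hS
  set Xb := lipC P * (1 + |β| * (M : ℝ) ^ P.natDegree) * (M : ℝ) ^ (2 * P.natDegree - 1)
  have hY0 : 0 ≤ Y := by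
    have h0 := absCoeff_nonneg P
    have h1 := absCoeff_nonneg (derivative P)
    positivity
  have hYX : Y ≤ Xb := by
    refine mul_le_mul_of_nonneg_right ?_ (by positivity)
    have h2 : 0 ≤ |β| * (M : ℝ) ^ P.natDegree := by positivity
    have h0 := absCoeff_nonneg P
    have h1 := absCoeff_nonneg (derivative P)
    have h3 := absCoeff_nonneg (derivative (derivative P))
    have : 2 * absCoeff P * absCoeff (derivative P) ≤ lipC P := by
      simp only [lipC]
      nlinarith [mul_nonneg h0 h1, mul_nonneg h0 h3, mul_nonneg h0 (sq_nonneg (absCoeff (derivative P)))]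
    nlinarith
  have e5 : 6 * lipC P * (g : ℝ) ^ 2 * q * (1 + |β| * (M : ℝ) ^ P.natDegree) *
      (M : ℝ) ^ (2 * P.natDegree - 1) = 6 * ((g : ℝ) ^ 2 * q * Xb) := by
    simp only [Xb]; ring
  rw [key, e5]
  exact major_arith hg1 hq1 hμ1 hA hS hG0 hI hY0 hYX

end Vale.Agent.P042.Sym
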