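import Vale.Agent.P042.Odd.Weyl

/-!
Decay of complete exponential sums modulo prime powers for polynomials with one coefficient of
bounded size, deduced from Weyl's inequality by discarding highly divisible top coefficients.
-/

open Finset

namespace Vale.Agent.P042.Sym

open Vale.Agent.P042.Odd

lemma top_affine_pow (w r : ℝ) {i l : ℕ} (hl : l ≤ i) :
    Top i (if l = i then w ^ i else 0) fun n => (r + w * n) ^ l := by
  have h := Top.sum (d := i) (range (l + 1))
    (fun j => (r ^ (l - j) * w ^ j * (l.choose j : ℝ)) * if j = i then 1 else 0)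
    (fun j n => (r ^ (l - j) * w ^ j * (l.choose j : ℝ)) * (n : ℝ) ^ j)
    fun j hj => Top.smul _ (top_pow i j (by have := mem_range.1 hj; omega))
  convert h using 1
  · split_ifs with he
    · subst he
      rw [sum_eq_single l]
      · simp
      · intro j _ hj; simp [hj]
      · intro hh; exact absurd (mem_range.2 (by omega)) hh
    · rw [sum_eq_zero fun j hj => by
        have : j ≠ i := by have := mem_range.1 hj; omega
        simp [this]]
  · funext n
    rw [add_comm r, add_pow]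
    refine sum_congr rfl fun j _ => ?_
    ring

lemma top_poly (i : ℕ) (b : ℕ → ℝ) (w r : ℝ) :
    Top i (b i * w ^ i) fun n => ∑ l ∈ range (i + 1), b l * (r + w * n) ^ l := by
  have h := Top.sum (d := i) (range (i + 1)) (fun l => b l * if l = i then w ^ i else 0)
    (fun l n => b l * (r + w * n) ^ l)
    fun l hl => Top.smul _ (top_affine_pow w r (by have := mem_range.1 hl; omega))
  convert h using 1
  rw [sum_eq_single i]
  · simp
  · intro j _ hj; simp [hj]
  · intro hh; exact absurd (mem_range.2 (by omega)) hh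

lemma sum_range_mul {M : Type*} [AddCommMonoid M] (f : ℕ → M) (A B : ℕ) :
    ∑ x ∈ range (A * B), f x = ∑ r ∈ range A, ∑ z ∈ range B, f (r + A * z) := by
  induction B with
  | zero => simp
  | succ B ih =>
    rw [Nat.mul_succ, sum_range_add, ih]
    simp only [sum_range_succ, sum_add_distrib]
    congr 1
    exact sum_congr rfl fun r _ => by rw [add_comm]

/-- The admissible loss at the coefficient of index `l`. -/
def loss (k E l : ℕ) : ℕ := E / (2 * (2 * k) ^ l)

lemma loss_le_half {k : ℕ} (hk : 1 ≤ k) (E l : ℕ) : loss k E l ≤ E / 2 :=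
  Nat.div_le_div_left (Nat.le_mul_of_pos_right _ (Nat.pow_pos (by omega))) (by norm_num)

lemma loss_anti {k : ℕ} (hk : 1 ≤ k) (E : ℕ) {l l' : ℕ} (h : l ≤ l') : loss k E l' ≤ loss k E l :=
  Nat.div_le_div_left (Nat.mul_le_mul_left _ (Nat.pow_le_pow_right (by omega) h))
    (Nat.mul_pos two_pos (Nat.pow_pos (by omega)))

lemma loss_succ {k : ℕ} (E l : ℕ) : 2 * k * loss k E (l + 1) ≤ loss k E l := by
  rw [loss, loss, pow_succ, show 2 * ((2 * k) ^ l * (2 * k)) = 2 * (2 * k) ^ l * (2 * k) by ring,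
    ← Nat.div_div_eq_div_mul]
  exact Nat.mul_div_le _ _

lemma lt_loss_succ_mul {k : ℕ} (hk : 1 ≤ k) (E : ℕ) {l : ℕ} (hl : l ≤ k) :
    E < (loss k E l + 1) * (2 * (2 * k) ^ k) := by
  have h1 : E < (loss k E l + 1) * (2 * (2 * k) ^ l) :=
    Nat.lt_mul_of_div_lt (Nat.lt_succ_self _) (Nat.mul_pos two_pos (Nat.pow_pos (by omega)))
  exact h1.trans_le (Nat.mul_le_mul_left _
    (Nat.mul_le_mul_left _ (Nat.pow_le_pow_right (by omega) hl)))

/-- Replacing `f` by a function congruent to it modulo integers. -/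
lemma circ_congr {x y : ℝ} (h : ∃ z : ℤ, x = (z : ℝ) + y) : circ x = circ y := by
  obtain ⟨z, rfl⟩ := h
  exact circ_int_add z y

/-- A Weyl sum to the modulus `p ^ n` whose top coefficient has denominator at least `p ^ u`. -/
lemma inner_le (i : ℕ) (hi : 1 ≤ i) : ∃ C : ℝ, ∃ s : ℕ, 1 ≤ C ∧ 1 ≤ s ∧
    ∀ (p : ℕ), p.Prime → ∀ (E n u : ℕ) (N : ℤ) (f : ℕ → ℝ),
      Top i ((N : ℝ) / (p : ℝ) ^ E) f → n ≤ E → 1 ≤ u → u + E ≤ 2 * n →
      ¬ ((p : ℤ) ^ (E - u + 1) ∣ N) → u ≤ E → (i = 1 → (p : ℤ) ^ (E - n) ∣ N) →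
      ‖∑ z ∈ range (p ^ n), circ (f z)‖ ≤ C * (p : ℝ) ^ n * (p : ℝ) ^ (-(u : ℝ) / s) := by
  obtain ⟨C, e, hW⟩ := weyl_top i hi
  refine ⟨2 * ((C : ℝ) + 1), e + 1, by have : (0 : ℝ) ≤ C := Nat.cast_nonneg C; linarith, by omega,
    fun p hp E n u N f hf hn hu hn2 hN huE hlin => ?_⟩
  have hp1 : (1 : ℝ) ≤ p := by exact_mod_cast hp.one_le
  have hp0 : (0 : ℝ) < p := by linarith
  have hpE : (0 : ℝ) < (p : ℝ) ^ E := by positivity
  rcases eq_or_ne i 1 with rfl | hi1
  · -- a linear phase: the sum vanishes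
    have hstep : ∀ z : ℕ, circ (f z) = circ (f 0) * circ ((N : ℝ) / (p : ℝ) ^ E) ^ z := by
      intro z
      induction z with
      | zero => simp
      | succ z ih =>
        have := hf 1 z
        simp only [Nat.cast_zero, zero_add, Nat.cast_one, one_mul, mul_one] at this
        rw [show f (z + 1) = f z + (N : ℝ) / (p : ℝ) ^ E by linarith, circ_add, ih, pow_succ]
        ring
    have hne : circ ((N : ℝ) / (p : ℝ) ^ E) ≠ 1 := by
      intro h
      rw [circ, Complex.exp_eq_one_iff] at h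
      obtain ⟨z, hz⟩ := h
      have h2 : (N : ℝ) / (p : ℝ) ^ E = z := by
        have h3 := congrArg Complex.im hz
        simp only [Complex.mul_im, Complex.ofReal_re, Complex.ofReal_im, Complex.I_re, Complex.I_im,
          mul_zero, mul_one, Complex.mul_re, Complex.intCast_re, Complex.intCast_im,
          Complex.re_ofNat, Complex.im_ofNat, add_zero, zero_mul, sub_zero] at h3
        have hpi := Real.pi_pos
        nlinarith
      rw [div_eq_iff hpE.ne'] at h2
      have h3 : N = z * (p : ℤ) ^ E := by exact_mod_cast h2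
      have h4 : (p : ℤ) ^ E ∣ N := ⟨z, by rw [h3, mul_comm]⟩
      exact hN ((pow_dvd_pow _ (by omega)).trans h4)
    have hone : circ ((N : ℝ) / (p : ℝ) ^ E) ^ p ^ n = 1 := by
      obtain ⟨y, hy⟩ := hlin rfl
      rw [circ, ← Complex.exp_nat_mul, Complex.exp_eq_one_iff]
      refine ⟨y, ?_⟩
      rw [hy, show (p : ℝ) ^ E = (p : ℝ) ^ (E - n) * (p : ℝ) ^ n by
        rw [← pow_add, Nat.sub_add_cancel hn]]
      have hpc : (p : ℂ) ≠ 0 := by exact_mod_cast hp.ne_zero
      push_cast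
      field_simp
    rw [sum_congr rfl fun z _ => hstep z, ← mul_sum, geom_sum_eq hne, hone]
    simp only [sub_self, zero_div, mul_zero, norm_zero]
    positivity
  · set R : ℝ := ((p : ℝ) ^ u / (C + 1)) ^ ((1 : ℝ) / (e + 1 : ℕ)) with hR
    have hR0 : 0 < R := by positivity
    have hbase : (p : ℝ) ^ (-(u : ℝ) / (e + 1 : ℕ)) * R =
        (((C : ℝ) + 1)⁻¹) ^ ((1 : ℝ) / (e + 1 : ℕ)) := by
      rw [hR, div_eq_mul_inv ((p : ℝ) ^ u), Real.mul_rpow (by positivity) (by positivity),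
        ← Real.rpow_natCast_mul hp0.le, ← mul_assoc, ← Real.rpow_add hp0,
        show -(u : ℝ) / (e + 1 : ℕ) + (u : ℝ) * (1 / (e + 1 : ℕ)) = 0 by ring, Real.rpow_zero,
        one_mul]
    have hCinv : ((C : ℝ) + 1)⁻¹ ≤ (((C : ℝ) + 1)⁻¹) ^ ((1 : ℝ) / (e + 1 : ℕ)) := by
      refine Real.self_le_rpow_of_le_one (by positivity) ?_ ?_
      · exact inv_le_one_of_one_le₀ (by have : (0 : ℝ) ≤ C := Nat.cast_nonneg C; linarith)
      · rw [div_le_one (by positivity)]; push_cast; linarith [(Nat.cast_nonneg e : (0 : ℝ) ≤ e)]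
    have hrel : 1 ≤ ((C : ℝ) + 1) * (p : ℝ) ^ (-(u : ℝ) / (e + 1 : ℕ)) * R := by
      rw [mul_assoc, hbase]
      calc (1 : ℝ) = ((C : ℝ) + 1) * ((C : ℝ) + 1)⁻¹ := by field_simp
        _ ≤ _ := mul_le_mul_of_nonneg_left hCinv (by positivity)
    have htriv : ‖∑ z ∈ range (p ^ n), circ (f z)‖ ≤ (p : ℝ) ^ n := by
      refine (norm_sum_le _ _).trans ?_
      simp [norm_circ]
    rcases lt_or_ge R 1 with hsmall | hbig
    · refine htriv.trans ?_
      have : 1 ≤ 2 * ((C : ℝ) + 1) * (p : ℝ) ^ (-(u : ℝ) / (e + 1 : ℕ)) := by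
        have h2 := mul_le_mul_of_nonneg_left hsmall.le
          (show 0 ≤ ((C : ℝ) + 1) * (p : ℝ) ^ (-(u : ℝ) / (e + 1 : ℕ)) by positivity)
        have h3 : 0 ≤ (p : ℝ) ^ (-(u : ℝ) / (e + 1 : ℕ)) := by positivity
        nlinarith [(Nat.cast_nonneg C : (0 : ℝ) ≤ C)]
      nlinarith [pow_pos hp0 n]
    · set K := ⌊R⌋₊ with hK
      have hK1 : 1 ≤ K := Nat.le_floor (by simpa using hbig)
      have hKR : (K : ℝ) ≤ R := Nat.floor_le hR0.le
      have hRK : R ≤ 2 * K := by
        have := Nat.lt_floor_add_one R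
        have : (1 : ℝ) ≤ K := by exact_mod_cast hK1
        rw [← hK] at *
        linarith
      have hCK : C * K ^ e < p ^ u := by
        have h1 : (K : ℝ) ^ (e + 1) ≤ (p : ℝ) ^ u / (C + 1) := by
          calc (K : ℝ) ^ (e + 1) ≤ R ^ (e + 1) := pow_le_pow_left₀ (Nat.cast_nonneg _) hKR _
            _ = _ := by
              rw [hR, ← Real.rpow_mul_natCast (by positivity), one_div_mul_cancel (by positivity),
                Real.rpow_one]
        rw [le_div_iff₀ (by positivity)] at h1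
        have h2 : K ^ (e + 1) * (C + 1) ≤ p ^ u := by exact_mod_cast h1
        have h3 : K ^ e ≤ K ^ (e + 1) := Nat.pow_le_pow_right hK1 (Nat.le_succ e)
        have h4 : 0 < K ^ e := Nat.pow_pos hK1
        nlinarith
      have hlt : ‖∑ z ∈ range (p ^ n), circ (f z)‖ < ((p ^ n : ℕ) : ℝ) / K := by
        by_contra hcon
        rw [not_lt] at hcon
        obtain ⟨q, hq1, hq2, z, hz⟩ := hW K (p ^ n) (p ^ n) f _ hK1 (Nat.pow_pos hp.pos) le_rfl hf hcon
        rcases eq_or_ne ((q : ℤ) * N - z * (p : ℤ) ^ E) 0 with h0 | h0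
        · have hdvd : (p : ℤ) ^ E ∣ (q : ℤ) * N := ⟨z, by linarith⟩
          have hpz : Prime (p : ℤ) := Nat.prime_iff_prime_int.1 hp
          rcases Nat.lt_or_ge (q) (p ^ u) with hlt' | hge
          · refine hN ?_
            obtain ⟨j, y, hy, hqy⟩ := Nat.exists_eq_pow_mul_and_not_dvd (by omega) p hp.ne_one (n := q)
            have hj : j < u := by
              by_contra hj
              have : p ^ u ≤ q := hqy ▸ (Nat.pow_le_pow_right hp.pos (not_lt.1 hj)).trans
                (Nat.le_mul_of_pos_right _ (Nat.pos_of_ne_zero fun h => by simp [h] at hy))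
              omega
            have h1 : (p : ℤ) ^ (E - j) ∣ (y : ℤ) * N := by
              rw [hqy, show (p : ℤ) ^ E = (p : ℤ) ^ j * (p : ℤ) ^ (E - j) by
                rw [← pow_add]; congr 1; omega] at hdvd
              push_cast at hdvd
              rw [mul_assoc] at hdvd
              exact (mul_dvd_mul_iff_left (pow_ne_zero _ hpz.ne_zero)).1 hdvd
            exact (pow_dvd_pow _ (by omega)).trans
              (hpz.pow_dvd_of_dvd_mul_left _ (fun h => hy (by exact_mod_cast h)) h1)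
          · omega
        · have h1 : (1 : ℝ) ≤ |(((q : ℤ) * N - z * (p : ℤ) ^ E : ℤ) : ℝ)| := by
            exact_mod_cast Int.one_le_abs h0
          have h2 : |(((q : ℤ) * N - z * (p : ℤ) ^ E : ℤ) : ℝ)| =
              |(q : ℝ) * ((N : ℝ) / (p : ℝ) ^ E) - z| * (p : ℝ) ^ E := by
            rw [← abs_of_pos hpE, ← abs_mul, abs_of_pos hpE]
            congr 1
            push_cast
            field_simp
          have h3 : (1 : ℝ) ≤ (C : ℝ) * (K : ℝ) ^ e / ((p ^ n : ℕ) : ℝ) ^ i * (p : ℝ) ^ E := by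
            rw [h2] at h1
            exact h1.trans (mul_le_mul_of_nonneg_right hz hpE.le)
          rw [div_mul_eq_mul_div, le_div_iff₀ (by have := hp.pos; positivity), one_mul] at h3
          have h4 : (p ^ n) ^ i ≤ C * K ^ e * p ^ E := by exact_mod_cast h3
          have h5 : p ^ (n * i) < p ^ (u + E) := by
            rw [pow_mul, pow_add]
            exact h4.trans_lt (Nat.mul_lt_mul_of_pos_right hCK (Nat.pow_pos hp.pos))
          have h6 := (Nat.pow_lt_pow_iff_right hp.one_lt).1 h5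
          have : n * 2 ≤ n * i := Nat.mul_le_mul_left _ (by omega)
          omega
      refine hlt.le.trans ?_
      push_cast
      rw [div_le_iff₀ (by exact_mod_cast hK1)]
      have h5 : 1 ≤ 2 * ((C : ℝ) + 1) * (p : ℝ) ^ (-(u : ℝ) / (e + 1 : ℕ)) * K := by
        have h6 := mul_le_mul_of_nonneg_left hRK
          (show 0 ≤ ((C : ℝ) + 1) * (p : ℝ) ^ (-(u : ℝ) / (e + 1 : ℕ)) by positivity)
        linarith
      push_cast at h5
      nlinarith [pow_pos hp0 n]

/-- Decay of complete sums: one coefficient of bounded size suffices. -/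
theorem decay (k m B : ℕ) (hm : 1 ≤ m) (hmk : m ≤ k) : ∃ C τ : ℝ, 1 ≤ C ∧ 0 < τ ∧ τ ≤ 1 ∧
    ∀ p : ℕ, p.Prime → ∀ (E : ℕ) (b : ℕ → ℤ), b m ≠ 0 → (b m).natAbs ≤ B → ∀ a : ℤ,
      ¬ (p : ℤ) ∣ a →
      ‖∑ x ∈ range (p ^ E), circ ((a : ℝ) * (∑ l ∈ range (k + 1), (b l : ℝ) * (x : ℝ) ^ l) /
        (p : ℝ) ^ E)‖ ≤ C * (p : ℝ) ^ E * (p : ℝ) ^ (-τ * E) := by
  classical
  have hk : 1 ≤ k := hm.trans hmk
  choose Cf sf hC hs hin using fun i : ℕ => inner_le (i + 1) (by omega)
  obtain ⟨S, hS⟩ : ∃ S, ∀ i < k, sf i ≤ S :=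
    ⟨(range k).sup sf, fun i hi => le_sup (mem_range.2 hi)⟩
  set C₀ : ℝ := 1 + (B : ℝ) + ∑ i ∈ range k, Cf i with hC₀
  have hC₀i : ∀ i < k, Cf i ≤ C₀ := fun i hi => by
    have := single_le_sum (f := Cf) (fun j _ => (zero_le_one.trans (hC j))) (mem_range.2 hi)
    have : (0 : ℝ) ≤ B := Nat.cast_nonneg B
    linarith
  have hC₀1 : 1 ≤ C₀ := by
    have : 0 ≤ ∑ i ∈ range k, Cf i := sum_nonneg fun j _ => zero_le_one.trans (hC j)
    have : (0 : ℝ) ≤ B := Nat.cast_nonneg B
    linarith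
  set D := 2 * (S + 1) * (2 * (2 * k) ^ k) with hD
  have hD2 : 2 ≤ D := by
    have h : 1 ≤ (2 * k) ^ k := Nat.pow_pos (by omega)
    rw [hD]; nlinarith
  refine ⟨C₀, 1 / D, hC₀1, by positivity, ?_, fun p hp E b hbm hbB a ha => ?_⟩
  · rw [div_le_one (by positivity)]
    exact_mod_cast (by omega : 1 ≤ D)
  have hp0 : (0 : ℝ) < p := by exact_mod_cast hp.pos
  have hpz : Prime (p : ℤ) := Nat.prime_iff_prime_int.1 hp
  set F : ℕ → ℂ := fun x => circ ((a : ℝ) * (∑ l ∈ range (k + 1), (b l : ℝ) * (x : ℝ) ^ l) /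
    (p : ℝ) ^ E) with hF
  set low := (Icc m k).filter fun l => ¬ (p : ℤ) ^ (E - loss k E l) ∣ b l with hlow
  rcases low.eq_empty_or_nonempty with hem | hne
  · have hd : (p : ℤ) ^ (E - loss k E m) ∣ b m := by
      by_contra hd
      have : m ∈ low := mem_filter.2 ⟨mem_Icc.2 ⟨le_rfl, hmk⟩, hd⟩
      simp [hem] at this
    have h1 : p ^ (E - loss k E m) ≤ B := by
      refine le_trans (Nat.le_of_dvd (Int.natAbs_pos.2 hbm) ?_) hbB
      have := Int.natAbs_dvd_natAbs.2 hd
      rwa [Int.natAbs_pow, Int.natAbs_natCast] at this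
    refine le_trans (b := (p : ℝ) ^ E * 1) ?_ ?_
    · rw [mul_one]; refine (norm_sum_le _ _).trans ?_; simp [norm_circ]
    rw [mul_assoc, mul_left_comm]
    refine mul_le_mul_of_nonneg_left ?_ (by positivity)
    rw [show (-(1 / (D : ℝ)) * E) = -((E : ℝ) / D) by ring, Real.rpow_neg hp0.le,
      ← div_eq_mul_inv, one_le_div (by positivity)]
    calc (p : ℝ) ^ ((E : ℝ) / D) ≤ (p : ℝ) ^ ((E - loss k E m : ℕ) : ℝ) := by
          refine Real.rpow_le_rpow_of_exponent_le (by exact_mod_cast hp.one_le) ?_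
          rw [div_le_iff₀ (by positivity)]
          have : E ≤ (E - loss k E m) * D := by
            have := loss_le_half hk E m
            calc E ≤ (E - loss k E m) * 2 := by omega
              _ ≤ _ := Nat.mul_le_mul_left _ hD2
          exact_mod_cast this
      _ = ((p ^ (E - loss k E m) : ℕ) : ℝ) := by rw [Real.rpow_natCast]; push_cast; rfl
      _ ≤ B := by exact_mod_cast h1
      _ ≤ C₀ := by
          have : 0 ≤ ∑ i ∈ range k, Cf i := sum_nonneg fun j _ => zero_le_one.trans (hC j)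
          rw [hC₀]; linarith
  set i := low.max' hne with hidef
  obtain ⟨hi, hilow⟩ := mem_filter.1 (low.max'_mem hne)
  rw [← hidef] at hi hilow
  obtain ⟨hmi, hik⟩ := mem_Icc.1 hi
  have hhigh : ∀ l, i < l → l ≤ k → (p : ℤ) ^ (E - loss k E (i + 1)) ∣ b l := by
    intro l hl hlk
    by_contra hd
    have : l ∈ low := mem_filter.2 ⟨mem_Icc.2 ⟨by omega, hlk⟩, fun h => hd
      ((pow_dvd_pow _ (Nat.sub_le_sub_left (loss_anti hk E hl) E)).trans h)⟩
    have := le_max' low l this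
    omega
  set t := loss k E (i + 1) with ht
  have hts : 2 * k * t ≤ loss k E i := loss_succ E i
  have hhalf := loss_le_half hk E i
  have hquart : loss k E i * 4 ≤ E := by
    refine le_trans (Nat.mul_le_mul_right 4 (Nat.div_le_div_left ?_ (by norm_num))) (Nat.div_mul_le_self E 4)
    have : 2 * k ≤ (2 * k) ^ i := Nat.le_self_pow (by omega) _
    omega
  have hit : i * t ≤ k * t := Nat.mul_le_mul_right t hik
  have hk2 : k * t * 2 ≤ loss k E i := by rw [mul_comm, ← mul_assoc]; exact hts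
  have ht1 : t ≤ k * t := Nat.le_mul_of_pos_left t hk
  set u := loss k E i - i * t + 1 with hu
  have huE : u ≤ E := by
    rcases Nat.eq_zero_or_pos E with h0 | h0
    · exfalso; apply hilow; rw [h0]; simp
    · omega
  set N : ℤ := a * b i * ((p : ℤ) ^ t) ^ i with hN
  have hN1 : ¬ (p : ℤ) ^ (E - u + 1) ∣ N := by
    intro hd
    rw [hN, mul_assoc] at hd
    have hd' := hpz.pow_dvd_of_dvd_mul_left _ ha hd
    rw [← pow_mul, show E - u + 1 = (E - loss k E i) + t * i by rw [mul_comm t i]; omega, pow_add] at hd'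
    exact hilow ((mul_dvd_mul_iff_right (pow_ne_zero _ hpz.ne_zero)).1 hd')
  have hsplit : ∑ x ∈ range (p ^ E), F x =
      ∑ r ∈ range (p ^ t), ∑ z ∈ range (p ^ (E - t)), F (r + p ^ t * z) := by
    rw [← sum_range_mul, ← pow_add, show t + (E - t) = E by omega]
  change ‖∑ x ∈ range (p ^ E), F x‖ ≤ _
  rw [hsplit]
  refine (norm_sum_le _ _).trans ?_
  obtain ⟨i', hi'⟩ : ∃ i', i = i' + 1 := ⟨i - 1, by omega⟩
  have hinner : ∀ r ∈ range (p ^ t), ‖∑ z ∈ range (p ^ (E - t)), F (r + p ^ t * z)‖ ≤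
      Cf i' * (p : ℝ) ^ (E - t) * (p : ℝ) ^ (-(u : ℝ) / sf i') := by
    intro r _
    set T : ℕ → ℤ := fun l => (a * b l) with hT
    set rest : ℤ := ∑ l ∈ Ioc i k, T l * (r : ℤ) ^ l with hrest
    set f : ℕ → ℝ := fun z => (∑ l ∈ range (i + 1),
      ((a : ℝ) * (b l : ℝ) / (p : ℝ) ^ E) * ((r : ℝ) + (p : ℝ) ^ t * z) ^ l) with hf
    have hcongr : ∀ z : ℕ, F (r + p ^ t * z) = circ ((rest : ℝ) / (p : ℝ) ^ E) * circ (f z) := by
      intro z
      rw [← circ_add, hF]
      refine circ_congr ?_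
      have hdiv : ∀ l ∈ Ioc i k, ∃ y : ℤ,
          T l * (((r + p ^ t * z : ℕ) : ℤ) ^ l - (r : ℤ) ^ l) = (p : ℤ) ^ E * y := by
        intro l hl
        obtain ⟨hl1, hl2⟩ := mem_Ioc.1 hl
        have h1 : (p : ℤ) ^ t ∣ ((r + p ^ t * z : ℕ) : ℤ) ^ l - (r : ℤ) ^ l :=
          dvd_trans ⟨(z : ℤ), by push_cast; ring⟩ (sub_dvd_pow_sub_pow _ _ l)
        have h2 := mul_dvd_mul (Dvd.dvd.mul_left (hhigh l hl1 hl2) a) h1
        rw [← pow_add, show E - loss k E (i + 1) + t = E by omega] at h2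
        exact h2
      choose! y hy using hdiv
      refine ⟨∑ l ∈ Ioc i k, y l, ?_⟩
      have hpe : (p : ℝ) ^ E ≠ 0 := by positivity
      have hrange : range (k + 1) = range (i + 1) ∪ Ioc i k := by ext; simp; omega
      rw [hrange, sum_union (disjoint_left.2 fun x hx hx' => by simp at hx hx'; omega)]
      have hsum : (a : ℝ) * ∑ l ∈ Ioc i k, (b l : ℝ) * ((r + p ^ t * z : ℕ) : ℝ) ^ l =
          (rest : ℝ) + (p : ℝ) ^ E * ∑ l ∈ Ioc i k, (y l : ℝ) := by
        rw [hrest, mul_sum, mul_sum, Int.cast_sum, ← sum_add_distrib]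
        refine sum_congr rfl fun l hl => ?_
        have := congrArg (fun w : ℤ => (w : ℝ)) (hy l hl)
        simp only [hT] at this ⊢
        push_cast at this ⊢
        linarith
      rw [mul_add, hsum, hf]
      push_cast
      have hlowsum : ∑ l ∈ range (i + 1), ((a : ℝ) * (b l : ℝ) / (p : ℝ) ^ E) *
          ((r : ℝ) + (p : ℝ) ^ t * z) ^ l =
          (a : ℝ) * (∑ l ∈ range (i + 1), (b l : ℝ) * ((r : ℝ) + (p : ℝ) ^ t * z) ^ l) /
            (p : ℝ) ^ E := by
        rw [mul_sum, sum_div]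
        exact sum_congr rfl fun l _ => by ring
      rw [hlowsum]
      field_simp
      ring
    rw [sum_congr rfl fun z _ => hcongr z, ← mul_sum, norm_mul, norm_circ, one_mul]
    refine hin i' p hp E (E - t) u N f ?_ (Nat.sub_le _ _) ?_ ?_ hN1 huE ?_
    · rw [← hi']
      have := top_poly i (fun l => (a : ℝ) * (b l : ℝ) / (p : ℝ) ^ E) ((p : ℝ) ^ t) (r : ℝ)
      convert this using 1
      rw [hN]; push_cast; ring
    · omega
    · omega
    · intro h1
      have : i = 1 := by omega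
      rw [show E - (E - t) = t by omega, hN, this, pow_one]
      exact dvd_mul_left _ _
  refine (sum_le_card_nsmul _ _ _ hinner).trans ?_
  rw [card_range, nsmul_eq_mul]
  push_cast
  have hik' : i' < k := by omega
  calc (p : ℝ) ^ t * (Cf i' * (p : ℝ) ^ (E - t) * (p : ℝ) ^ (-(u : ℝ) / sf i'))
      = Cf i' * ((p : ℝ) ^ t * (p : ℝ) ^ (E - t)) * (p : ℝ) ^ (-(u : ℝ) / sf i') := by ring
    _ = Cf i' * (p : ℝ) ^ E * (p : ℝ) ^ (-(u : ℝ) / sf i') := by
        rw [← pow_add, show t + (E - t) = E by omega]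
    _ ≤ C₀ * (p : ℝ) ^ E * (p : ℝ) ^ (-(1 / (D : ℝ)) * E) := by
        refine mul_le_mul (mul_le_mul_of_nonneg_right (hC₀i i' hik') (by positivity))
          (Real.rpow_le_rpow_of_exponent_le (by exact_mod_cast hp.one_le) ?_) (by positivity)
          (by positivity)
        rw [show (-(1 / (D : ℝ)) * E) = -((E : ℝ) / D) by ring, neg_div, neg_le_neg_iff,
          div_le_div_iff₀ (by positivity) (by exact_mod_cast hs i')]
        have h1 : E * sf i' ≤ u * D := by
          have hlt := lt_loss_succ_mul hk E hik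
          have h2 : loss k E i + 1 ≤ 2 * u := by omega
          calc E * sf i' ≤ ((loss k E i + 1) * (2 * (2 * k) ^ k)) * (S + 1) :=
                Nat.mul_le_mul hlt.le ((hS i' hik').trans (Nat.le_succ S))
            _ ≤ (2 * u * (2 * (2 * k) ^ k)) * (S + 1) := by gcongr
            _ = u * D := by rw [hD]; ring
        exact_mod_cast h1

end Vale.Agent.P042.Sym
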