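import Vale.Agent.P042.Sym.Basic

/-!
Elementary size bounds for an integer polynomial and the weight built from it.
-/

open Finset Polynomial

namespace Vale.Agent.P042.Sym

/-- The sum of the absolute values of the coefficients. -/
def coeffSum (P : ℤ[X]) : ℕ := ∑ l ∈ range (P.natDegree + 1), (P.coeff l).natAbs

lemma aeval_eq_sum {R : Type*} [CommRing R] (P : ℤ[X]) (x : R) :
    aeval x P = ∑ l ∈ range (P.natDegree + 1), (P.coeff l : R) * x ^ l := by
  rw [aeval_eq_sum_range]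
  exact sum_congr rfl fun l _ => zsmul_eq_mul _ _

lemma abs_aeval_le_coeffSum (P : ℤ[X]) {x M : ℝ} (hx : |x| ≤ M) (hM : 1 ≤ M) :
    |aeval x P| ≤ (coeffSum P : ℝ) * M ^ P.natDegree := by
  rw [aeval_eq_sum, coeffSum, Nat.cast_sum, sum_mul]
  refine (abs_sum_le_sum_abs _ _).trans (sum_le_sum fun l hl => ?_)
  rw [abs_mul, abs_pow, Nat.cast_natAbs, Int.cast_abs]
  exact mul_le_mul_of_nonneg_left ((pow_le_pow_left₀ (abs_nonneg x) hx l).trans
    (pow_le_pow_right₀ hM (by have := mem_range.1 hl; omega))) (abs_nonneg _)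

lemma natAbs_eval_le (P : ℤ[X]) {n M : ℕ} (hn : n ≤ M) (hM : 1 ≤ M) :
    (P.eval (n : ℤ)).natAbs ≤ coeffSum P * M ^ P.natDegree := by
  have h : ((P.eval (n : ℤ)).natAbs : ℝ) ≤ (coeffSum P : ℝ) * (M : ℝ) ^ P.natDegree := by
    rw [Nat.cast_natAbs, Int.cast_abs]
    have e : ((P.eval (n : ℤ) : ℤ) : ℝ) = aeval (n : ℝ) P := by
      rw [aeval_eq_sum, eval_eq_sum_range]; push_cast; rfl
    rw [e]
    exact abs_aeval_le_coeffSum P (by rw [Nat.abs_cast]; exact_mod_cast hn) (by exact_mod_cast hM)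
  exact_mod_cast h

/-- The weight as a combination of monomials. -/
lemma weight_eq_sum {P : ℤ[X]} (hk : 1 ≤ P.natDegree) (M : ℕ) (x : ℝ) :
    weight P M x = ∑ l ∈ range (2 * P.natDegree),
      (aeval (M : ℝ) P * ((derivative P).coeff l : ℝ) - ((derivative P * P).coeff l : ℝ)) * x ^ l := by
  have hd : (derivative P).natDegree < 2 * P.natDegree := by
    have := natDegree_derivative_le P; omega
  have hd2 : (derivative P * P).natDegree < 2 * P.natDegree := by
    have := natDegree_derivative_le P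
    have := natDegree_mul_le (p := derivative P) (q := P)
    omega
  rw [weight, mul_sub, ← map_mul, aeval_eq_sum_range' hd (x := x), aeval_eq_sum_range' hd2 (x := x),
    sum_mul, ← sum_sub_distrib]
  refine sum_congr rfl fun l _ => ?_
  rw [zsmul_eq_mul, zsmul_eq_mul]
  ring

/-- The monomials of the weight are of size `M ^ (2k - 1)`. -/
lemma weight_coeff_le (P : ℤ[X]) (hk : 1 ≤ P.natDegree) : ∃ C : ℕ, ∀ M : ℕ, 1 ≤ M →
    ∑ l ∈ range (2 * P.natDegree),
      |aeval (M : ℝ) P * ((derivative P).coeff l : ℝ) - ((derivative P * P).coeff l : ℝ)| *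
        (M : ℝ) ^ l ≤ (C : ℝ) * (M : ℝ) ^ (2 * P.natDegree - 1) := by
  refine ⟨∑ l ∈ range (2 * P.natDegree),
    (coeffSum P * ((derivative P).coeff l).natAbs + ((derivative P * P).coeff l).natAbs),
    fun M hM => ?_⟩
  have hMr : (1 : ℝ) ≤ M := by exact_mod_cast hM
  push_cast
  rw [sum_mul]
  refine sum_le_sum fun l hl => ?_
  rw [mem_range] at hl
  refine (mul_le_mul_of_nonneg_right (abs_sub _ _) (by positivity)).trans ?_
  rw [add_mul, add_mul, abs_mul]
  refine add_le_add ?_ ?_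
  · rcases Nat.lt_or_ge l P.natDegree with hlk | hlk
    · rw [Nat.cast_natAbs, Int.cast_abs]
      calc |aeval (M : ℝ) P| * |((derivative P).coeff l : ℝ)| * (M : ℝ) ^ l
          ≤ (coeffSum P : ℝ) * (M : ℝ) ^ P.natDegree * |((derivative P).coeff l : ℝ)| *
              (M : ℝ) ^ (P.natDegree - 1) := by
            refine mul_le_mul ?_ (pow_le_pow_right₀ hMr (by omega)) (by positivity) (by positivity)
            exact mul_le_mul_of_nonneg_right
              (abs_aeval_le_coeffSum P (by rw [Nat.abs_cast]) hMr) (abs_nonneg _)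
        _ = _ := by
            rw [show 2 * P.natDegree - 1 = P.natDegree + (P.natDegree - 1) by omega, pow_add]; ring
    · have h0 : (derivative P).coeff l = 0 :=
        coeff_eq_zero_of_natDegree_lt (by have := natDegree_derivative_le P; omega)
      rw [h0]
      simp
  · rw [Nat.cast_natAbs, Int.cast_abs]
    exact mul_le_mul_of_nonneg_left (pow_le_pow_right₀ hMr (by omega)) (abs_nonneg _)

/-- The weight is of size `M ^ (2k - 1)` on `[0, M]`. -/
lemma exists_weight_bound (P : ℤ[X]) (hk : 1 ≤ P.natDegree) : ∃ C : ℕ, ∀ (M : ℕ) (x : ℝ), 1 ≤ M →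
    0 ≤ x → x ≤ M → |weight P M x| ≤ (C : ℝ) * (M : ℝ) ^ (2 * P.natDegree - 1) := by
  obtain ⟨C, hC⟩ := weight_coeff_le P hk
  refine ⟨C, fun M x hM hx hxM => ?_⟩
  rw [weight_eq_sum hk]
  refine (abs_sum_le_sum_abs _ _).trans ((sum_le_sum fun l _ => ?_).trans (hC M hM))
  rw [abs_mul, abs_pow, abs_of_nonneg hx]
  exact mul_le_mul_of_nonneg_left (pow_le_pow_left₀ hx hxM l) (abs_nonneg _)

/-- The top term dominates. -/
lemma half_pow_le (P : ℤ[X]) (hk : 1 ≤ P.natDegree) {M : ℕ} (hM : 2 * coeffSum P + 1 ≤ M) :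
    (M : ℝ) ^ P.natDegree / 2 ≤ |aeval (M : ℝ) P| := by
  have hMr : (1 : ℝ) ≤ M := by exact_mod_cast (show 1 ≤ M by omega)
  obtain ⟨j, hj⟩ : ∃ j, P.natDegree = j + 1 := ⟨P.natDegree - 1, by omega⟩
  have hM2 : 2 * (coeffSum P : ℝ) ≤ M := by exact_mod_cast (show 2 * coeffSum P ≤ M by omega)
  rw [aeval_eq_sum, sum_range_succ]
  have hc : (1 : ℝ) ≤ |(P.coeff P.natDegree : ℝ)| := by
    have h0 : P.coeff P.natDegree ≠ 0 := by
      rw [coeff_natDegree]
      exact leadingCoeff_ne_zero.2 (fun h => by simp [h] at hk)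
    exact_mod_cast Int.one_le_abs h0
  have hlow : |∑ l ∈ range P.natDegree, (P.coeff l : ℝ) * (M : ℝ) ^ l| ≤
      (coeffSum P : ℝ) * (M : ℝ) ^ j := by
    rw [coeffSum, Nat.cast_sum, sum_mul]
    refine (abs_sum_le_sum_abs _ _).trans ((sum_le_sum fun l hl => ?_).trans
      (sum_le_sum_of_subset_of_nonneg (range_mono (Nat.le_succ _)) fun _ _ _ => by positivity))
    rw [abs_mul, abs_pow, Nat.abs_cast, Nat.cast_natAbs, Int.cast_abs]
    exact mul_le_mul_of_nonneg_left
      (pow_le_pow_right₀ hMr (by have := mem_range.1 hl; omega)) (abs_nonneg _)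
  have htop : (M : ℝ) ^ P.natDegree ≤ |(P.coeff P.natDegree : ℝ) * (M : ℝ) ^ P.natDegree| := by
    rw [abs_mul, abs_pow, Nat.abs_cast]
    exact le_mul_of_one_le_left (by positivity) hc
  have hsplit := abs_sub_abs_le_abs_sub ((P.coeff P.natDegree : ℝ) * (M : ℝ) ^ P.natDegree)
    (-(∑ l ∈ range P.natDegree, (P.coeff l : ℝ) * (M : ℝ) ^ l))
  rw [abs_neg, sub_neg_eq_add, add_comm] at hsplit
  have h9 : (M : ℝ) ^ P.natDegree = (M : ℝ) * (M : ℝ) ^ j := by rw [hj, pow_succ']
  nlinarith [pow_nonneg (zero_le_one.trans hMr) j]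

end Vale.Agent.P042.Sym
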