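import Vale.Agent.P042.Odd.Trunc
import Vale.Agent.P042.Sym.Gauss
import Vale.Agent.P042.Sym.Decay

/-!
Positivity of the complete weighted series for an odd integer polynomial, from the decay of the
complete sums.
-/

open Finset Polynomial
open scoped ArithmeticFunction.Moebius

namespace Vale.Agent.P042.Sym

open Vale.Agent.P042.Odd (sum_divisors_coprime circ circ_re circ_int_add norm_circ)

/-- The Möbius transform of the dilated complete sum. -/
noncomputable def psi (P : ℤ[X]) (q : ℕ) (a : ℤ) (d : ℕ) : ℝ :=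
  ∑ x ∈ d.divisorsAntidiagonal, (μ x.1 : ℝ) * gauss P q a x.2

/-- The complete weighted series. -/
noncomputable def full (P : ℤ[X]) (σ : ℝ) (q : ℕ) (a : ℤ) : ℝ :=
  ∑ d ∈ q.divisors, (d : ℝ) ^ (-σ) * psi P q a d

lemma psi_eq (P : ℤ[X]) (q : ℕ) (a : ℤ) (d : ℕ) :
    psi P q a d = ∑ e ∈ d.divisors, (μ e : ℝ) * gauss P q a (d / e) :=
  Nat.sum_divisorsAntidiagonal fun e g => (μ e : ℝ) * gauss P q a g

lemma gauss_dilate_mul {P : ℤ[X]} (hP : P.comp (-X) = -P) {q r : ℕ} [NeZero q] [NeZero r]
    (h : q.Coprime r) {r' q' : ℤ} (hr : ((r' * r : ℤ) : ZMod q) = 1)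
    (hq : ((q' * q : ℤ) : ZMod r) = 1) (a : ℤ) {x y : ℕ} (hx : x ∣ q) (hy : y ∣ r) :
    gauss P (q * r) a (x * y) = gauss P q (a * r') x * gauss P r (a * q') y := by
  rw [gauss_mul hP h hr hq]
  congr 1
  · exact gauss_unit P _ (x * y) x (y : ZMod q)
      ((ZMod.isUnit_iff_coprime y q).2 (h.symm.coprime_dvd_left hy)) (by push_cast; ring)
  · exact gauss_unit P _ (x * y) y (x : ZMod r)
      ((ZMod.isUnit_iff_coprime x r).2 (h.coprime_dvd_left hx)) (by push_cast; ring)

lemma full_mul {P : ℤ[X]} (hP : P.comp (-X) = -P) (σ : ℝ) {q r : ℕ} [NeZero q] [NeZero r]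
    (h : q.Coprime r) {r' q' : ℤ} (hr : ((r' * r : ℤ) : ZMod q) = 1)
    (hq : ((q' * q : ℤ) : ZMod r) = 1) (a : ℤ) :
    full P σ (q * r) a = full P σ q (a * r') * full P σ r (a * q') := by
  rw [full, sum_divisors_coprime (NeZero.ne q) (NeZero.ne r) h, full, full, sum_mul_sum]
  refine sum_congr rfl fun x hx => sum_congr rfl fun y hy => ?_
  rw [Nat.mem_divisors] at hx hy
  have hxy : x.Coprime y := (h.coprime_dvd_left hx.1).coprime_dvd_right hy.1
  have hx0 : x ≠ 0 := fun e => by simp_all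
  have hy0 : y ≠ 0 := fun e => by simp_all
  have hpsi : psi P (q * r) a (x * y) = psi P q (a * r') x * psi P r (a * q') y := by
    rw [psi_eq, sum_divisors_coprime hx0 hy0 hxy, psi_eq, psi_eq, sum_mul_sum]
    refine sum_congr rfl fun i hi => sum_congr rfl fun j hj => ?_
    rw [Nat.mem_divisors] at hi hj
    rw [← Nat.div_mul_div_comm hi.1 hj.1,
      gauss_dilate_mul hP h hr hq a ((Nat.div_dvd_of_dvd hi.1).trans hx.1)
        ((Nat.div_dvd_of_dvd hj.1).trans hy.1),
      ArithmeticFunction.isMultiplicative_moebius.map_mul_of_coprime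
        ((hxy.coprime_dvd_left hi.1).coprime_dvd_right hj.1)]
    push_cast
    ring
  rw [hpsi, Nat.cast_mul, Real.mul_rpow (Nat.cast_nonneg _) (Nat.cast_nonneg _)]
  ring

lemma trailing_pos {P : ℤ[X]} (hP : P.comp (-X) = -P) (h0 : P ≠ 0) : 1 ≤ P.natTrailingDegree := by
  by_contra h
  have hc := mem_support_iff.1 (natTrailingDegree_mem_support_of_nonzero h0)
  rw [show P.natTrailingDegree = 0 by omega, coeff_zero_eq_eval_zero, eval_zero_of_odd hP] at hc
  exact hc rfl

/-- The value at a dilated point, with the trailing power taken out. -/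
lemma eval_dilate (P : ℤ[X]) (t x : ℤ) :
    P.eval (t * x) = t ^ P.natTrailingDegree * ∑ l ∈ range (P.natDegree + 1),
      (if l < P.natTrailingDegree then 0 else P.coeff l * t ^ (l - P.natTrailingDegree)) * x ^ l := by
  rw [eval_eq_sum_range, mul_sum]
  refine sum_congr rfl fun l _ => ?_
  split_ifs with h
  · simp [coeff_eq_zero_of_lt_natTrailingDegree h]
  · rw [mul_pow, show t ^ l = t ^ P.natTrailingDegree * t ^ (l - P.natTrailingDegree) by
      rw [← pow_add]; congr 1; omega]
    ring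

/-- Decay of the dilated complete sums at prime powers. -/
lemma gauss_decay {P : ℤ[X]} (hP : P.comp (-X) = -P) (h0 : P ≠ 0) :
    ∃ C τ : ℝ, 1 ≤ C ∧ 0 < τ ∧ τ ≤ 1 ∧ ∀ p : ℕ, p.Prime → ∀ (e j : ℕ) (a : ℤ), ¬ (p : ℤ) ∣ a →
      P.natTrailingDegree * j < e →
      |gauss P (p ^ e) a (p ^ j)| ≤ C * (p : ℝ) ^ (-τ * (e - P.natTrailingDegree * j : ℕ)) := by
  have hm := trailing_pos hP h0
  set m := P.natTrailingDegree with hmdef
  obtain ⟨C, τ, hC, hτ, hτ1, hdec⟩ := decay P.natDegree m (P.coeff m).natAbs hm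
    (natTrailingDegree_le_natDegree P)
  refine ⟨C, τ, hC, hτ, hτ1, fun p hp e j a ha hej => ?_⟩
  set E := e - m * j with hE
  set b : ℕ → ℤ := fun l => if l < m then 0 else P.coeff l * ((p ^ j : ℕ) : ℤ) ^ (l - m) with hb
  have hbm : b m = P.coeff m := by simp [hb]
  have hbne : b m ≠ 0 := by
    rw [hbm, hmdef]; exact mem_support_iff.1 (natTrailingDegree_mem_support_of_nonzero h0)
  set S : ℕ → ℤ := fun x => ∑ l ∈ range (P.natDegree + 1), b l * (x : ℤ) ^ l with hS
  set F : ℕ → ℂ := fun x => circ ((a : ℝ) * (∑ l ∈ range (P.natDegree + 1),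
    (b l : ℝ) * (x : ℝ) ^ l) / (p : ℝ) ^ E) with hF
  have hp0 : (p : ℝ) ≠ 0 := by exact_mod_cast hp.ne_zero
  have hFS : ∀ x, F x = circ ((a : ℝ) * (S x : ℝ) / (p : ℝ) ^ E) := fun x => by
    simp only [hF, hS]; push_cast; rfl
  have hval : ∀ x : ℕ, Real.cos (2 * Real.pi * a * aeval (((p ^ j : ℕ) : ℝ) * x) P /
      ((p ^ e : ℕ) : ℝ)) = (F x).re := by
    intro x
    rw [hFS, circ_re, ← Nat.cast_mul (α := ℝ), aeval_natCast, Nat.cast_mul,
      eval_dilate P ((p ^ j : ℕ) : ℤ) (x : ℤ), ← hmdef]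
    change Real.cos (2 * Real.pi * a * (((((p ^ j : ℕ) : ℤ)) ^ m * S x : ℤ) : ℝ) / _) = _
    congr 1
    rw [show e = m * j + E by omega]
    push_cast
    rw [← pow_mul, mul_comm j m, pow_add]
    field_simp
  have hper : ∀ r z : ℕ, F (r + p ^ E * z) = F r := by
    intro r z
    rw [hFS, hFS]
    have hd : (p : ℤ) ^ E ∣ S (r + p ^ E * z) - S r := by
      simp only [hS]
      rw [← sum_sub_distrib]
      refine dvd_sum fun l _ => ?_
      rw [← mul_sub]
      refine Dvd.dvd.mul_left (dvd_trans ⟨(z : ℤ), ?_⟩ (sub_dvd_pow_sub_pow _ _ l)) _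
      push_cast; ring
    obtain ⟨w, hw⟩ := hd
    refine circ_congr ⟨a * w, ?_⟩
    have hw' : (S (r + p ^ E * z) : ℝ) - S r = (p : ℝ) ^ E * w := by exact_mod_cast hw
    push_cast
    field_simp
    linear_combination (a : ℝ) * hw'
  have hsum : gauss P (p ^ e) a (p ^ j) = (∑ r ∈ range (p ^ E), F r).re / (p : ℝ) ^ E := by
    rw [gauss, sum_congr rfl fun x _ => hval x, ← Complex.re_sum, show e = E + m * j by omega,
      pow_add, sum_range_mul]
    simp only [hper, sum_const, card_range, ← smul_sum]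
    rw [nsmul_eq_mul, Complex.mul_re, Complex.natCast_re, Complex.natCast_im, zero_mul, sub_zero]
    push_cast
    field_simp
  have hpE : (0 : ℝ) < (p : ℝ) ^ E := by have := hp.pos; positivity
  rw [hsum, abs_div, abs_of_pos hpE, div_le_iff₀ hpE]
  refine (Complex.abs_re_le_norm _).trans ((hdec p hp E b hbne (by rw [hbm]) a ha).trans_eq ?_)
  ring

lemma geom_tail_le {x : ℝ} (hx : 0 ≤ x) (hx1 : x < 1) (n : ℕ) :
    ∑ l ∈ range n, x ^ (l + 1) ≤ x / (1 - x) := by
  rw [le_div_iff₀ (by linarith), sum_mul]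
  calc ∑ l ∈ range n, x ^ (l + 1) * (1 - x) = ∑ l ∈ range n, (x * x ^ l - x * x ^ (l + 1)) :=
        sum_congr rfl fun l _ => by ring
    _ = x * x ^ 0 - x * x ^ n := sum_range_sub' (fun l => x * x ^ l) n
    _ ≤ x := by
      have : 0 ≤ x * x ^ n := by positivity
      simpa using this

/-- The prime-power series, summed by parts. -/
lemma series_eq (Φ : ℕ → ℝ) (h : ℝ) (e : ℕ) :
    Φ 0 + ∑ i ∈ range e, h ^ (i + 1) * (Φ (i + 1) - Φ i) =
      (1 - h) * ∑ i ∈ range e, h ^ i * Φ i + h ^ e * Φ e := by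
  induction e with
  | zero => simp
  | succ e ih => rw [sum_range_succ, sum_range_succ, ← add_assoc, ih]; ring

lemma full_prime_pow (P : ℤ[X]) (σ : ℝ) {p : ℕ} (hp : p.Prime) (a : ℤ) (e : ℕ) :
    full P σ (p ^ e) a =
      (1 - (p : ℝ) ^ (-σ)) * ∑ i ∈ range e, ((p : ℝ) ^ (-σ)) ^ i * gauss P (p ^ e) a (p ^ i) +
        ((p : ℝ) ^ (-σ)) ^ e * gauss P (p ^ e) a (p ^ e) := by
  rw [← series_eq (fun i => gauss P (p ^ e) a (p ^ i))]
  have hh : ∀ i : ℕ, ((p ^ i : ℕ) : ℝ) ^ (-σ) = ((p : ℝ) ^ (-σ)) ^ i := by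
    intro i
    rw [Nat.cast_pow, ← Real.rpow_natCast, ← Real.rpow_mul (Nat.cast_nonneg _), mul_comm,
      Real.rpow_mul (Nat.cast_nonneg _), Real.rpow_natCast]
  rw [full, Nat.sum_divisors_prime_pow hp, sum_range_succ']
  simp only [hh, pow_zero, one_mul]
  rw [add_comm]
  congr 1
  · simp [psi]
  refine sum_congr rfl fun i _ => ?_
  congr 1
  rw [psi_eq, Nat.sum_divisors_prime_pow hp, sum_range_succ', sum_range_succ']
  rw [sum_eq_zero fun j _ => ?_]
  · have e1 : p ^ (i + 1) / p = p ^ i := by rw [pow_succ, Nat.mul_div_cancel _ hp.pos]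
    simp only [zero_add, pow_one, pow_zero, Nat.div_one, e1,
      ArithmeticFunction.moebius_apply_prime hp, ArithmeticFunction.moebius_apply_one,
      Int.cast_neg, Int.cast_one]
    ring
  · rw [ArithmeticFunction.moebius_apply_prime_pow hp (by omega), if_neg (by omega)]
    simp

/-- For `σ` small enough the weighted series is nonnegative at every fraction. -/
theorem full_nonneg {P : ℤ[X]} (hP : P.comp (-X) = -P) (h0 : P ≠ 0) :
    ∃ σ : ℝ, 0 < σ ∧ σ ≤ 1 ∧ ∀ q : ℕ, 0 < q → ∀ a : ℤ, IsCoprime a (q : ℤ) →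
      0 ≤ full P σ q a := by
  obtain ⟨C, τ, hC, hτ, hτ1, hdec⟩ := gauss_decay hP h0
  have hm := trailing_pos hP h0
  set m := P.natTrailingDegree with hmdef
  have h2 : (2 : ℝ) ^ (-(τ / 2)) < 1 :=
    Real.rpow_lt_one_of_one_lt_of_neg (by norm_num) (by linarith)
  set C' := C / (1 - (2 : ℝ) ^ (-(τ / 2))) with hC'
  have hC'0 : 0 < C' := div_pos (by linarith) (by linarith)
  set L := 2 / τ * Real.log (2 * C) with hL
  have hL0 : 0 ≤ L := mul_nonneg (by positivity) (Real.log_nonneg (by linarith))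
  refine ⟨min (τ / 2) (1 / (C' * L + 1)), lt_min (by linarith) (by positivity),
    le_trans (min_le_left _ _) (by linarith), ?_⟩
  set σ := min (τ / 2) (1 / (C' * L + 1)) with hσdef
  have hσ : 0 < σ := lt_min (by linarith) (by positivity)
  intro q
  induction q using Nat.recOnPosPrimePosCoprime with
  | zero => intro h; omega
  | one =>
    intro _ a _
    simp [full, psi, gauss_eq_one P one_pos]
  | prime_pow p e hp he =>
    intro _ a ha
    have hpa : ¬ (p : ℤ) ∣ a := by
      intro hd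
      rw [Nat.cast_pow] at ha
      exact (Nat.prime_iff_prime_int.1 hp).not_isUnit
        ((ha.of_isCoprime_of_dvd_left hd).isUnit_of_dvd' dvd_rfl (dvd_pow_self _ he.ne'))
    have hp2 : (2 : ℝ) ≤ p := by exact_mod_cast hp.two_le
    have hp0 : (0 : ℝ) < p := by linarith
    set h := (p : ℝ) ^ (-σ) with hh
    have hh0 : 0 < h := by positivity
    have hh1 : h ≤ 1 := Real.rpow_le_one_of_one_le_of_nonpos (by linarith) (by linarith)
    set y := (p : ℝ) ^ (-(τ / 2)) with hy
    have hy0 : 0 < y := by positivity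
    have hy2 : y ≤ (2 : ℝ) ^ (-(τ / 2)) := Real.rpow_le_rpow_of_nonpos (by norm_num) hp2 (by linarith)
    -- the geometric bound
    have hgeo : (1 - h) * (C * (y / (1 - y))) ≤ 1 := by
      rcases le_or_gt (2 * C * y) 1 with hc | hc
      · have : C * (y / (1 - y)) ≤ 1 := by
          rw [← mul_div_assoc, div_le_one (by linarith)]
          nlinarith
        calc (1 - h) * (C * (y / (1 - y))) ≤ 1 * 1 :=
              mul_le_mul (by linarith) this (mul_nonneg (by linarith)
                (div_nonneg hy0.le (by linarith))) zero_le_one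
          _ = 1 := one_mul 1
      · have h3 : C * (y / (1 - y)) ≤ C' := by
          rw [hC', ← mul_div_assoc]
          exact div_le_div₀ (by linarith) (mul_le_of_le_one_right (by linarith) (by linarith))
            (by linarith) (by linarith)
        have hlog : Real.log p ≤ L := by
          have h4 := Real.log_lt_log one_pos hc
          rw [Real.log_one, Real.log_mul (by linarith) hy0.ne', hy, Real.log_rpow hp0] at h4
          rw [hL, div_mul_eq_mul_div, le_div_iff₀ hτ]
          linarith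
        have h5 : 1 - h ≤ σ * Real.log p := by
          have : h = Real.exp (-(σ * Real.log p)) := by
            rw [hh, Real.rpow_def_of_pos hp0]; ring_nf
          rw [this]
          linarith [Real.add_one_le_exp (-(σ * Real.log p))]
        calc (1 - h) * (C * (y / (1 - y))) ≤ σ * L * C' :=
              mul_le_mul (h5.trans (mul_le_mul_of_nonneg_left hlog hσ.le)) h3
                (mul_nonneg (by linarith) (div_nonneg hy0.le (by linarith))) (by positivity)
          _ ≤ 1 / (C' * L + 1) * (C' * L + 1) := by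
              rw [mul_assoc, mul_comm L C']
              exact mul_le_mul (min_le_right _ _) (by linarith) (by positivity) (by positivity)
          _ = 1 := by field_simp
    set Φ : ℕ → ℝ := fun i => gauss P (p ^ e) a (p ^ i) with hΦ
    set J := (e + m - 1) / m with hJ
    have hJe : e ≤ m * J := by
      have := Nat.div_add_mod (e + m - 1) m
      have := Nat.mod_lt (e + m - 1) (show m > 0 by omega)
      rw [hJ]; omega
    have hJlt : m * J < e + m := by
      have := Nat.mul_div_le (e + m - 1) m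
      rw [hJ]; omega
    have hJle : J ≤ e := by
      by_contra hcon
      have h1 := Nat.mul_le_mul_left m (Nat.succ_le_of_lt (not_le.1 hcon))
      have h2 : e ≤ m * e := Nat.le_mul_of_pos_left e hm
      rw [Nat.mul_succ] at h1
      omega
    have hone : ∀ i, J ≤ i → Φ i = 1 := by
      intro i hi
      refine gauss_eq_one P (Nat.pow_pos hp.pos) a _ fun x => Dvd.dvd.mul_left ?_ a
      rw [eval_dilate, ← hmdef]
      refine Dvd.dvd.mul_right ?_ _
      push_cast
      rw [← pow_mul]
      refine pow_dvd_pow _ (hJe.trans ?_)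
      rw [mul_comm i m]
      exact Nat.mul_le_mul_left m hi
    have hsplit : full P σ (p ^ e) a = (1 - h) * ∑ i ∈ range J, h ^ i * Φ i + h ^ J := by
      rw [full_prime_pow P σ hp a e, ← hh]
      have e1 : ∀ n, J ≤ n → (1 - h) * ∑ i ∈ range n, h ^ i * Φ i + h ^ n =
          (1 - h) * ∑ i ∈ range J, h ^ i * Φ i + h ^ J := by
        intro n hn
        induction n, hn using Nat.le_induction with
        | base => rfl
        | succ n hn ih => rw [sum_range_succ, hone n hn, ← ih]; ring
      rw [show gauss P (p ^ e) a (p ^ e) = 1 from hone e hJle, mul_one]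
      exact e1 e hJle
    have habs : ∀ l < J, |h ^ (J - 1 - l) * Φ (J - 1 - l)| ≤ h ^ J * (C * y ^ (l + 1)) := by
      intro l hl
      set i := J - 1 - l with hi
      have hJi : J = i + (l + 1) := by omega
      have h1 : m * i + (l + 1) ≤ e := by
        have : m * J = m * i + m * (l + 1) := by rw [hJi, mul_add]
        have h2 : l ≤ m * l := Nat.le_mul_of_pos_left l hm
        rw [Nat.mul_succ] at this
        omega
      have hΦb : |Φ i| ≤ C * y ^ (l + 1) * h ^ (l + 1) := by
        refine (hdec p hp e i a hpa (by omega)).trans ?_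
        rw [mul_assoc]
        refine mul_le_mul_of_nonneg_left ?_ (by linarith)
        rw [← mul_pow, hy, hh, ← Real.rpow_add hp0, ← Real.rpow_natCast, ← Real.rpow_mul hp0.le]
        refine Real.rpow_le_rpow_of_exponent_le (by linarith) ?_
        have h6 : ((l + 1 : ℕ) : ℝ) ≤ ((e - m * i : ℕ) : ℝ) := by
          exact_mod_cast (by omega : l + 1 ≤ e - m * i)
        nlinarith [min_le_left (τ / 2) (1 / (C' * L + 1)),
          (Nat.cast_nonneg (l + 1) : (0 : ℝ) ≤ ((l + 1 : ℕ) : ℝ))]
      rw [abs_mul, abs_of_nonneg (by positivity)]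
      calc h ^ i * |Φ i| ≤ h ^ i * (C * y ^ (l + 1) * h ^ (l + 1)) :=
            mul_le_mul_of_nonneg_left hΦb (by positivity)
        _ = _ := by rw [hJi, pow_add]; ring
    rw [hsplit, ← sum_range_reflect (fun i => h ^ i * Φ i) J]
    have hsum : |∑ l ∈ range J, h ^ (J - 1 - l) * Φ (J - 1 - l)| ≤ h ^ J * (C * (y / (1 - y))) := by
      refine (abs_sum_le_sum_abs _ _).trans ((sum_le_sum fun l hl => habs l (mem_range.1 hl)).trans ?_)
      rw [← mul_sum, ← mul_sum]
      gcongr
      exact geom_tail_le hy0.le (by linarith) J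
    have h7 := mul_le_mul_of_nonneg_left (abs_le.1 hsum).1 (show 0 ≤ 1 - h by linarith)
    have h8 := mul_le_mul_of_nonneg_left hgeo (show 0 ≤ h ^ J by positivity)
    linarith
  | coprime q r hq hr hqr ihq ihr =>
    intro _ a ha
    have : NeZero q := ⟨by omega⟩
    have : NeZero r := ⟨by omega⟩
    obtain ⟨u, v, huv⟩ : IsCoprime (q : ℤ) (r : ℤ) := Nat.isCoprime_iff_coprime.2 hqr
    have h1 : ((v * r : ℤ) : ZMod q) = 1 := by
      rw [show v * (r : ℤ) = 1 - u * q by linarith]; push_cast [ZMod.natCast_self]; ring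
    have h2 : ((u * q : ℤ) : ZMod r) = 1 := by
      rw [show u * (q : ℤ) = 1 - v * r by linarith]; push_cast [ZMod.natCast_self]; ring
    rw [full_mul hP σ hqr h1 h2]
    rw [Nat.cast_mul] at ha
    refine mul_nonneg (ihq (by omega) _ (ha.of_mul_right_left.mul_left ?_))
      (ihr (by omega) _ (ha.of_mul_right_right.mul_left ?_))
    · exact ⟨r, u, by linarith⟩
    · exact ⟨q, v, by linarith⟩

end Vale.Agent.P042.Sym
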