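import Vale.Agent.P042.Odd.Weyl
import Vale.Agent.P042.Sym.Bounds
import Vale.Agent.P042.Sym.Decay

/-!
Minor arcs: a large dilated sum along a polynomial puts `g ^ k θ` next to a fraction with small
denominator.
-/

open Finset Polynomial

namespace Vale.Agent.P042.Sym

open Vale.Agent.P042.Odd (circ circ_re weyl_top norm_abel)

/-- Minor arcs. -/
theorem dilSum_minor {P : ℤ[X]} (hk : 1 ≤ P.natDegree) : ∃ C E : ℕ, ∀ (M g K : ℕ) (θ : ℝ),
    1 ≤ M → 1 ≤ g → 1 ≤ K → (g : ℝ) * (M : ℝ) ^ (2 * P.natDegree) / K ≤ |dilSum P M g θ| →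
    ∃ q : ℕ, 1 ≤ q ∧ q ≤ C * K ^ E ∧ ∃ a : ℤ,
      |(q : ℝ) * ((g : ℝ) ^ P.natDegree * θ) - a| ≤
        ((C : ℝ) * (K : ℝ) ^ E) / (M : ℝ) ^ P.natDegree := by
  obtain ⟨C, E, hW⟩ := weyl_top P.natDegree hk
  obtain ⟨A, hA⟩ := weight_coeff_le P hk
  set c := P.coeff P.natDegree with hc
  have hc0 : c ≠ 0 := by
    rw [hc, coeff_natDegree]; exact leadingCoeff_ne_zero.2 (fun h => by simp [h] at hk)
  have hc1 : 1 ≤ c.natAbs := Int.natAbs_pos.2 hc0
  refine ⟨C * (2 * A + 1) ^ E * c.natAbs, E, fun M g K θ hM hg hK hbig => ?_⟩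
  set z : ℕ → ℂ := fun m => circ (θ * aeval ((g : ℝ) + (g : ℝ) * m) P) with hz
  have hMr : (1 : ℝ) ≤ M := by exact_mod_cast hM
  have hgr : (1 : ℝ) ≤ g := by exact_mod_cast hg
  have hKr : (1 : ℝ) ≤ K := by exact_mod_cast hK
  have hreindex : ∑ n ∈ (Icc 1 M).filter (g ∣ ·),
      weight P M n * Real.cos (2 * Real.pi * θ * aeval (n : ℝ) P) =
      ∑ m ∈ range (M / g), weight P M ((g : ℝ) + (g : ℝ) * m) * (z m).re := by
    symm
    refine sum_bij' (fun m _ => g * (m + 1)) (fun n _ => n / g - 1) ?_ ?_ ?_ ?_ ?_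
    · intro m hm
      rw [mem_range] at hm
      rw [mem_filter, mem_Icc]
      refine ⟨⟨Nat.mul_pos hg (Nat.succ_pos m), ?_⟩, Dvd.intro _ rfl⟩
      exact le_trans (Nat.mul_le_mul_left g hm) (Nat.mul_div_le M g)
    · intro n hn
      obtain ⟨hn', t, rfl⟩ := mem_filter.1 hn
      rw [mem_Icc] at hn'
      rw [Nat.mul_div_cancel_left _ hg, mem_range]
      have : 0 < t := Nat.pos_of_mul_pos_left hn'.1
      have : t ≤ M / g := (Nat.le_div_iff_mul_le hg).2 (by rw [mul_comm]; exact hn'.2)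
      omega
    · intro m _
      rw [Nat.mul_div_cancel_left _ hg, Nat.add_sub_cancel]
    · intro n hn
      obtain ⟨hn', t, rfl⟩ := mem_filter.1 hn
      rw [Nat.mul_div_cancel_left _ hg, Nat.sub_add_cancel]
      exact Nat.pos_of_mul_pos_left (mem_Icc.1 hn').1
    · intro m _
      simp only [hz, circ_re]
      push_cast
      rw [show (g : ℝ) * ((m : ℝ) + 1) = (g : ℝ) + (g : ℝ) * m by ring, mul_assoc (2 * Real.pi) θ]
  have htop : Vale.Agent.P042.Odd.Top P.natDegree ((c : ℝ) * ((g : ℝ) ^ P.natDegree * θ))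
      fun m => θ * aeval ((g : ℝ) + (g : ℝ) * m) P := by
    have h := top_poly P.natDegree (fun l => θ * (P.coeff l : ℝ)) (g : ℝ) (g : ℝ)
    convert h using 1
    · rw [hc]; ring
    · funext m
      rw [aeval_eq_sum, mul_sum]
      exact sum_congr rfl fun l _ => by ring
  by_cases hY : ∃ Y ≤ M / g, (M : ℝ) / (((2 * A + 1) * K : ℕ) : ℝ) ≤ ‖∑ i ∈ range Y, z i‖
  · obtain ⟨Y, hY1, hY2⟩ := hY
    obtain ⟨q, hq1, hq2, a, ha⟩ := hW ((2 * A + 1) * K) M Y _ _
      (Nat.mul_pos (by omega) hK) hM (hY1.trans (Nat.div_le_self _ _)) htop hY2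
    refine ⟨q * c.natAbs, Nat.mul_pos hq1 hc1, ?_, c.sign * a, ?_⟩
    · calc q * c.natAbs ≤ C * ((2 * A + 1) * K) ^ E * c.natAbs := Nat.mul_le_mul_right _ hq2
        _ = _ := by rw [mul_pow]; ring
    · have e : ((q * c.natAbs : ℕ) : ℝ) * ((g : ℝ) ^ P.natDegree * θ) - ((c.sign * a : ℤ) : ℝ) =
          (c.sign : ℝ) * ((q : ℝ) * ((c : ℝ) * ((g : ℝ) ^ P.natDegree * θ)) - a) := by
        have hs : ((c.natAbs : ℕ) : ℝ) = (c.sign : ℝ) * (c : ℝ) := by
          rw [← Int.cast_natCast, ← Int.cast_mul, Int.sign_mul_self_eq_natAbs]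
        push_cast
        rw [hs]
        ring
      rw [e, abs_mul]
      have hs1 : |(c.sign : ℝ)| ≤ 1 := by
        rcases lt_trichotomy c 0 with h | h | h
        · rw [Int.sign_eq_neg_one_of_neg h]; simp
        · exact absurd h hc0
        · rw [Int.sign_eq_one_of_pos h]; simp
      refine (mul_le_of_le_one_left (abs_nonneg _) hs1).trans (ha.trans ?_)
      refine div_le_div_of_nonneg_right ?_ (by positivity)
      push_cast
      rw [mul_pow, ← mul_assoc]
      refine mul_le_mul_of_nonneg_right ?_ (by positivity)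
      exact le_mul_of_one_le_right (by positivity) (by exact_mod_cast hc1)
  · exfalso
    push Not at hY
    rw [dilSum, hreindex] at hbig
    rcases Nat.eq_zero_or_pos (M / g) with h0 | hpos
    · rw [h0, sum_range_zero, mul_zero, abs_zero] at hbig
      have : (0 : ℝ) < (g : ℝ) * (M : ℝ) ^ (2 * P.natDegree) / K := by positivity
      linarith
    obtain ⟨n, hn⟩ : ∃ n, M / g = n + 1 := ⟨M / g - 1, by omega⟩
    obtain ⟨Ym, hYm, hmax⟩ := exists_max_image (range (n + 2)) (fun Y => ‖∑ i ∈ range Y, z i‖)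
      ⟨0, mem_range.2 (by omega)⟩
    set B := ‖∑ i ∈ range Ym, z i‖ with hB
    have hB0 : 0 ≤ B := norm_nonneg _
    have hBlt : B < (M : ℝ) / (((2 * A + 1) * K : ℕ) : ℝ) :=
      hY Ym (by have := mem_range.1 hYm; omega)
    have hBle : ∀ Y ≤ n + 1, ‖∑ i ∈ range Y, z i‖ ≤ B := fun Y hY => hmax Y (mem_range.2 (by omega))
    have hgn : (g : ℝ) + (g : ℝ) * n ≤ M := by
      have : g * (n + 1) ≤ M := hn ▸ Nat.mul_div_le M g
      have h' : (g : ℝ) * ((n : ℝ) + 1) ≤ M := by exact_mod_cast this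
      linarith
    have habel : ∀ j : ℕ,
        ‖∑ i ∈ range (n + 1), ((((g : ℝ) + (g : ℝ) * i) ^ j : ℝ) : ℂ) * z i‖ ≤
          2 * B * (M : ℝ) ^ j := by
      intro j
      refine (norm_abel (fun i => ((g : ℝ) + (g : ℝ) * i) ^ j) z B (by positivity) ?_ n hBle).trans ?_
      · intro x y hxy
        have : (x : ℝ) ≤ y := by exact_mod_cast hxy
        simp only
        gcongr
      · gcongr
    have hsum : |∑ m ∈ range (M / g), weight P M ((g : ℝ) + (g : ℝ) * m) * (z m).re| ≤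
        2 * B * ((A : ℝ) * (M : ℝ) ^ (2 * P.natDegree - 1)) := by
      set w : ℕ → ℝ := fun l => aeval (M : ℝ) P * ((derivative P).coeff l : ℝ) -
        ((derivative P * P).coeff l : ℝ) with hw
      have e : ∑ m ∈ range (M / g), weight P M ((g : ℝ) + (g : ℝ) * m) * (z m).re =
          ∑ l ∈ range (2 * P.natDegree), w l *
            (∑ i ∈ range (n + 1), ((((g : ℝ) + (g : ℝ) * i) ^ l : ℝ) : ℂ) * z i).re := by
        rw [hn]
        simp only [Complex.re_sum, Complex.re_ofReal_mul, mul_sum]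
        rw [sum_comm]
        refine sum_congr rfl fun m _ => ?_
        rw [weight_eq_sum hk, sum_mul]
        exact sum_congr rfl fun l _ => by simp only [hw]; ring
      rw [e]
      refine (abs_sum_le_sum_abs _ _).trans ?_
      calc ∑ l ∈ range (2 * P.natDegree), |w l * (∑ i ∈ range (n + 1),
            ((((g : ℝ) + (g : ℝ) * i) ^ l : ℝ) : ℂ) * z i).re|
          ≤ ∑ l ∈ range (2 * P.natDegree), 2 * B * (|w l| * (M : ℝ) ^ l) := by
            refine sum_le_sum fun l _ => ?_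
            rw [abs_mul, mul_left_comm]
            exact mul_le_mul_of_nonneg_left ((Complex.abs_re_le_norm _).trans (habel l)) (abs_nonneg _)
        _ ≤ _ := by rw [← mul_sum]; exact mul_le_mul_of_nonneg_left (hA M hM) (by positivity)
    rw [abs_mul, Nat.abs_cast] at hbig
    have h4 : (g : ℝ) * (2 * B * ((A : ℝ) * (M : ℝ) ^ (2 * P.natDegree - 1))) <
        (g : ℝ) * (M : ℝ) ^ (2 * P.natDegree) / K := by
      push_cast at hBlt
      have hsucc : (M : ℝ) ^ (2 * P.natDegree) = (M : ℝ) ^ (2 * P.natDegree - 1) * M := by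
        rw [← pow_succ, Nat.sub_add_cancel (by omega)]
      rw [lt_div_iff₀ (by positivity), hsucc]
      rw [lt_div_iff₀ (by positivity)] at hBlt
      have hp : (0 : ℝ) < (g : ℝ) * (M : ℝ) ^ (2 * P.natDegree - 1) := by positivity
      nlinarith [mul_lt_mul_of_pos_left hBlt hp, mul_nonneg (mul_nonneg hp.le hB0)
        (show (0 : ℝ) ≤ K by positivity)]
    have := mul_le_mul_of_nonneg_left hsum (Nat.cast_nonneg g : (0 : ℝ) ≤ g)
    linarith

end Vale.Agent.P042.Sym
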