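import Vale.Agent.P042.Sym.Local

/-!
The truncated weighted series for an odd polynomial.
-/

open Finset Polynomial
open scoped ArithmeticFunction.Moebius

namespace Vale.Agent.P042.Sym

/-- The truncated weighted series. -/
noncomputable def trunc (P : ℤ[X]) (σ : ℝ) (D q : ℕ) (a : ℤ) : ℝ :=
  ∑ d ∈ Icc 1 D, (d : ℝ) ^ (-σ) * psi P q a d

lemma psi_eq_zero (P : ℤ[X]) {q : ℕ} [NeZero q] (a : ℤ) {d : ℕ} (hd : 0 < d) (h : ¬ d ∣ q) :
    psi P q a d = 0 := by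
  have hsum : ∀ m : ℕ, m > 0 → ∑ i ∈ m.divisors, psi P q a i = gauss P q a m :=
    (ArithmeticFunction.sum_eq_iff_sum_mul_moebius_eq
      (g := fun m : ℕ => gauss P q a m)).2 fun n _ => rfl
  have hf : ∀ m : ℕ, m > 0 →
      ∑ i ∈ m.divisors, (if i ∣ q then psi P q a i else 0) = gauss P q a m := by
    intro m hm
    rw [← sum_filter, gauss_gcd P a m, ← hsum (m.gcd q) (Nat.gcd_pos_of_pos_left _ hm)]
    refine sum_congr ?_ fun _ _ => rfl
    ext i
    simp only [mem_filter, Nat.mem_divisors, Nat.dvd_gcd_iff, ne_eq, Nat.gcd_eq_zero_iff]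
    constructor
    · rintro ⟨⟨h1, -⟩, h2⟩
      exact ⟨⟨h1, h2⟩, fun h => by omega⟩
    · rintro ⟨⟨h1, h2⟩, -⟩
      exact ⟨⟨h1, by omega⟩, h2⟩
  have hd' := (ArithmeticFunction.sum_eq_iff_sum_mul_moebius_eq.1 hf) d hd
  rw [if_neg h] at hd'
  exact hd'

lemma trunc_one (P : ℤ[X]) (σ : ℝ) {D : ℕ} (hD : 1 ≤ D) : trunc P σ D 1 0 = 1 := by
  rw [trunc, sum_eq_single 1]
  · simp [psi, gauss_eq_one P one_pos]
  · intro d hd h1
    rw [psi_eq_zero P 0 (mem_Icc.1 hd).1 (fun h => h1 (Nat.dvd_one.1 h)), mul_zero]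
  · intro h; exact absurd (mem_Icc.2 ⟨le_rfl, hD⟩) h

lemma full_sub_trunc_le (P : ℤ[X]) {σ : ℝ} (hσ : 0 ≤ σ) {D q : ℕ} (hD : 0 < D) (hq : 0 < q)
    (a : ℤ) : full P σ q a - trunc P σ D q a ≤ (q.divisors.card : ℝ) ^ 2 * (D : ℝ) ^ (-σ) := by
  have : NeZero q := ⟨hq.ne'⟩
  have hpsi : ∀ d : ℕ, |psi P q a d| ≤ (d.divisors.card : ℝ) := fun d => by
    rw [psi_eq]
    refine (abs_sum_le_sum_abs _ _).trans
      ((sum_le_sum (g := fun _ => (1 : ℝ)) fun e _ => ?_).trans_eq (by simp))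
    rw [abs_mul]
    exact mul_le_one₀ (by exact_mod_cast ArithmeticFunction.abs_moebius_le_one (n := e))
      (abs_nonneg _) (abs_gauss_le_one _ _ _ _)
  have h1 : trunc P σ D q a =
      ∑ d ∈ q.divisors.filter (· ≤ D), (d : ℝ) ^ (-σ) * psi P q a d := by
    rw [trunc]
    refine (sum_subset ?_ fun d hd hd' => ?_).symm
    · intro d hd
      rw [mem_filter] at hd
      exact mem_Icc.2 ⟨Nat.pos_of_mem_divisors hd.1, hd.2⟩
    · rw [mem_Icc] at hd
      rw [psi_eq_zero P a (by omega)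
        fun hdq => hd' (mem_filter.2 ⟨Nat.mem_divisors.2 ⟨hdq, hq.ne'⟩, hd.2⟩), mul_zero]
  rw [h1, full, ← sum_filter_add_sum_filter_not q.divisors (· ≤ D), add_sub_cancel_left]
  refine (le_abs_self _).trans ((abs_sum_le_sum_abs _ _).trans ?_)
  refine (sum_le_card_nsmul _ _ ((q.divisors.card : ℝ) * (D : ℝ) ^ (-σ)) fun d hd => ?_).trans ?_
  · obtain ⟨hdq, hDd⟩ := mem_filter.1 hd
    rw [abs_mul, abs_of_nonneg (by positivity), mul_comm (q.divisors.card : ℝ)]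
    refine mul_le_mul ?_ ((hpsi _).trans ?_) (abs_nonneg _) (by positivity)
    · exact Real.rpow_le_rpow_of_nonpos (by exact_mod_cast hD)
        (by exact_mod_cast (not_le.1 hDd).le) (neg_nonpos.2 hσ)
    · exact_mod_cast card_le_card
        (Nat.divisors_subset_of_dvd hq.ne' (Nat.dvd_of_mem_divisors hdq))
  · rw [nsmul_eq_mul, sq, mul_assoc]
    exact mul_le_mul_of_nonneg_right (by exact_mod_cast card_filter_le _ _) (by positivity)

end Vale.Agent.P042.Sym
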