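import Vale.Agent.P042.Odd.Main
import Vale.Agent.P042.Sym.Trunc
import Vale.Agent.P042.Sym.Major
import Vale.Agent.P042.Sym.Minor

/-!
A power saving for sets without differences equal to values of an odd integer polynomial.
-/

open Finset Polynomial
open scoped ArithmeticFunction.Moebius

namespace Vale.Agent.P042.Sym

open Vale.Agent.P042.Odd (energy energy_nonneg sum_cos_range card_divisors_pow_le)

/-- The test polynomial. -/
noncomputable def test (P : ℤ[X]) (σ : ℝ) (M D : ℕ) (θ : ℝ) : ℝ :=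
  ∑ d ∈ Icc 1 D, (d : ℝ) ^ (-σ) *
    ∑ x ∈ d.divisorsAntidiagonal, (μ x.1 : ℝ) * dilSum P M x.2 θ

/-- A combination with the coefficients of `test` of numbers of size `B` has size `D ^ 2 * B`. -/
lemma comb_le {σ B : ℝ} (hσ : 0 ≤ σ) {D : ℕ} (G : ℕ → ℝ)
    (h : ∀ g, 1 ≤ g → g ≤ D → |G g| ≤ B) :
    |∑ d ∈ Icc 1 D, (d : ℝ) ^ (-σ) * ∑ x ∈ d.divisorsAntidiagonal, (μ x.1 : ℝ) * G x.2| ≤
      (D : ℝ) ^ 2 * B := by
  rcases Nat.eq_zero_or_pos D with rfl | hD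
  · simp
  have hB : 0 ≤ B := le_trans (abs_nonneg _) (h 1 le_rfl hD)
  refine (abs_sum_le_sum_abs _ _).trans
    ((sum_le_card_nsmul _ _ ((D : ℝ) * B) fun d hd => ?_).trans_eq ?_)
  · obtain ⟨hd1, hdD⟩ := mem_Icc.1 hd
    rw [abs_mul, abs_of_nonneg (by positivity : (0 : ℝ) ≤ (d : ℝ) ^ (-σ))]
    refine (mul_le_mul (Real.rpow_le_one_of_one_le_of_nonpos (by exact_mod_cast hd1)
      (neg_nonpos.2 hσ)) le_rfl (abs_nonneg _) zero_le_one).trans ?_
    rw [one_mul]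
    refine (abs_sum_le_sum_abs _ _).trans ((sum_le_card_nsmul _ _ B fun x hx => ?_).trans ?_)
    · obtain ⟨hx1, hx0⟩ := Nat.mem_divisorsAntidiagonal.1 hx
      have hg : 1 ≤ x.2 := Nat.pos_of_ne_zero fun h0 => hx0 (by rw [← hx1, h0, mul_zero])
      have hgd : x.2 ≤ D := (Nat.le_of_dvd (by omega) (Dvd.intro_left x.1 hx1)).trans hdD
      rw [abs_mul]
      exact (mul_le_mul (by exact_mod_cast ArithmeticFunction.abs_moebius_le_one (n := x.1))
        (h _ hg hgd) (abs_nonneg _) zero_le_one).trans_eq (one_mul B)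
    · rw [nsmul_eq_mul, ← Nat.map_div_right_divisors, card_map]
      gcongr
      exact (Nat.card_divisors_le_self d).trans hdD
  · simp [sq, mul_assoc]

lemma test_approx (P : ℤ[X]) {σ B : ℝ} (hσ : 0 ≤ σ) {M D : ℕ} {θ : ℝ} (F : ℕ → ℝ)
    (h : ∀ g, 1 ≤ g → g ≤ D → |dilSum P M g θ - F g| ≤ B) :
    |test P σ M D θ - ∑ d ∈ Icc 1 D, (d : ℝ) ^ (-σ) *
      ∑ x ∈ d.divisorsAntidiagonal, (μ x.1 : ℝ) * F x.2| ≤ (D : ℝ) ^ 2 * B := by
  have := comb_le (B := B) hσ (fun g => dilSum P M g θ - F g) h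
  simpa only [test, mul_sub, sum_sub_distrib] using this

lemma comb_eq_trunc (P : ℤ[X]) (σ : ℝ) (D q : ℕ) (a : ℤ) (I : ℝ) :
    ∑ d ∈ Icc 1 D, (d : ℝ) ^ (-σ) * ∑ x ∈ d.divisorsAntidiagonal,
      (μ x.1 : ℝ) * (gauss P q a x.2 * I) = trunc P σ D q a * I := by
  rw [trunc, sum_mul]
  refine sum_congr rfl fun d _ => ?_
  rw [psi, mul_assoc, sum_mul]
  congr 1
  exact sum_congr rfl fun x _ => (mul_assoc _ _ _).symm

lemma aeval_natCast_real (P : ℤ[X]) (n : ℕ) : aeval (n : ℝ) P = ((P.eval (n : ℤ) : ℤ) : ℝ) :=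
  aeval_natCast P n

/-- The length of the cyclic group used. -/
def period (P : ℤ[X]) (M : ℕ) : ℕ := (coeffSum P + 2) * M ^ P.natDegree

/-- The energy pairs with a dilated sum only through the excluded arguments. -/
lemma energy_dilSum_le {P : ℤ[X]} (n₀ : ℕ) {M g : ℕ} (hM : 1 ≤ M) {W : ℝ}
    (hW : ∀ n ∈ Icc 1 M, |weight P M (n : ℝ)| ≤ W) {A : Finset ℕ}
    (hA : A ⊆ Icc 1 (M ^ P.natDegree))
    (hfree : ∀ a ∈ A, ∀ b ∈ A, ∀ n : ℕ, n₀ < n → P.eval (n : ℤ) ≠ 0 →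
      (a : ℤ) - (b : ℤ) ≠ P.eval (n : ℤ)) (hP0 : P ≠ 0) :
    |∑ j ∈ range (period P M), energy A (period P M) j *
      dilSum P M g ((j : ℝ) / (period P M : ℝ))| ≤
      ((n₀ + P.natDegree : ℕ) : ℝ) * ((g : ℝ) * W) * ((period P M : ℝ) * A.card) := by
  classical
  set L := period P M with hL
  have : NeZero L := ⟨by rw [hL, period]; positivity⟩
  have hW0 : 0 ≤ W := (abs_nonneg _).trans (hW 1 (mem_Icc.2 ⟨le_rfl, hM⟩))
  have hen : ∑ j ∈ range L, energy A L j = L * A.card := by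
    simp only [energy]
    rw [sum_comm]
    calc ∑ a ∈ A, ∑ j ∈ range L, ∑ b ∈ A,
          Real.cos (2 * Real.pi * (((a : ℤ) - b : ℤ) : ℝ) * j / L)
        = ∑ a ∈ A, (L : ℝ) := by
          refine sum_congr rfl fun a ha => ?_
          rw [sum_comm, sum_eq_single_of_mem a ha]
          · rw [sum_cos_range, if_pos (by simp)]
          · intro b hb hne
            rw [sum_cos_range, if_neg]
            rw [ZMod.intCast_zmod_eq_zero_iff_dvd]
            intro hd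
            have ha' := mem_Icc.1 (hA ha)
            have hb' := mem_Icc.1 (hA hb)
            have hLle : M ^ P.natDegree ≤ L := by
              rw [hL, period]; exact Nat.le_mul_of_pos_left _ (by omega)
            have := Int.eq_zero_of_abs_lt_dvd hd (abs_lt.2 ⟨by omega, by omega⟩)
            omega
      _ = _ := by simp [mul_comm]
  set bad : ℕ → Prop := fun n => n ≤ n₀ ∨ P.eval (n : ℤ) = 0 with hbad
  set S := (Icc 1 M).filter (g ∣ ·) with hS
  set T : ℕ → ℝ := fun n => ∑ j ∈ range L, energy A L j *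
    ((g : ℝ) * (weight P M n * Real.cos (2 * Real.pi * ((j : ℝ) / L) * aeval (n : ℝ) P))) with hT
  have hswap : ∑ j ∈ range L, energy A L j * dilSum P M g ((j : ℝ) / (L : ℝ)) = ∑ n ∈ S, T n := by
    simp only [dilSum, mul_sum, hT]
    rw [sum_comm]
  have hgood : ∀ n ∈ S, ¬ bad n → T n = 0 := by
    intro n hn hnb
    simp only [hbad, not_or, not_le] at hnb
    obtain ⟨hn1, hnM⟩ := mem_Icc.1 (mem_filter.1 hn).1
    simp only [hT, energy, sum_mul]
    rw [sum_comm]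
    refine sum_eq_zero fun a ha => ?_
    rw [sum_comm]
    refine sum_eq_zero fun b hb => ?_
    set v := P.eval (n : ℤ) with hv
    have hvb : v.natAbs ≤ coeffSum P * M ^ P.natDegree := natAbs_eval_le P hnM hM
    have ha' := mem_Icc.1 (hA ha)
    have hb' := mem_Icc.1 (hA hb)
    have hLv : L = coeffSum P * M ^ P.natDegree + 2 * M ^ P.natDegree := by
      rw [hL, period, add_mul]
    have key : ∀ z : ℤ, -(L : ℤ) < z → z < L → z ≠ 0 → (z : ZMod L) ≠ 0 := by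
      intro z h1 h2 h3 h4
      rw [ZMod.intCast_zmod_eq_zero_iff_dvd] at h4
      exact h3 (Int.eq_zero_of_abs_lt_dvd h4 (abs_lt.2 ⟨h1, h2⟩))
    have hz1 := key ((a : ℤ) - b + v) (by omega) (by omega) (by
      intro h; exact hfree b hb a ha n hnb.1 hnb.2 (by omega))
    have hz2 := key ((a : ℤ) - b - v) (by omega) (by omega) (by
      intro h; exact hfree a ha b hb n hnb.1 hnb.2 (by omega))
    have e : ∀ j : ℕ, Real.cos (2 * Real.pi * (((a : ℤ) - b : ℤ) : ℝ) * j / L) *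
        ((g : ℝ) * (weight P M n * Real.cos (2 * Real.pi * ((j : ℝ) / L) * aeval (n : ℝ) P))) =
        (g : ℝ) * weight P M n / 2 *
          (Real.cos (2 * Real.pi * (((a : ℤ) - b + v : ℤ) : ℝ) * j / L) +
            Real.cos (2 * Real.pi * (((a : ℤ) - b - v : ℤ) : ℝ) * j / L)) := by
      intro j
      rw [aeval_natCast_real, ← hv, show 2 * Real.pi * (((a : ℤ) - b + v : ℤ) : ℝ) * j / L =
          2 * Real.pi * (((a : ℤ) - b : ℤ) : ℝ) * j / L + 2 * Real.pi * ((j : ℝ) / L) * (v : ℝ) by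
        push_cast; ring, show 2 * Real.pi * (((a : ℤ) - b - v : ℤ) : ℝ) * j / L =
          2 * Real.pi * (((a : ℤ) - b : ℤ) : ℝ) * j / L - 2 * Real.pi * ((j : ℝ) / L) * (v : ℝ) by
        push_cast; ring, Real.cos_add, Real.cos_sub]
      ring
    rw [sum_congr rfl fun j _ => e j, ← mul_sum, sum_add_distrib, sum_cos_range, sum_cos_range,
      if_neg hz1, if_neg hz2, add_zero, mul_zero]
  have hone : ∀ n ∈ S, |T n| ≤ (g : ℝ) * W * ((L : ℝ) * A.card) := by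
    intro n hn
    rw [← hen, mul_sum]
    refine (abs_sum_le_sum_abs _ _).trans (sum_le_sum fun j _ => ?_)
    rw [abs_mul, abs_of_nonneg (energy_nonneg A L j), mul_comm ((g : ℝ) * W), abs_mul, abs_mul,
      Nat.abs_cast]
    refine mul_le_mul_of_nonneg_left (mul_le_mul_of_nonneg_left ?_ (Nat.cast_nonneg g))
      (energy_nonneg A L j)
    exact (mul_le_mul (hW n (mem_filter.1 hn).1) (Real.abs_cos_le_one _) (abs_nonneg _) hW0).trans_eq
      (mul_one W)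
  have hcardbad : (S.filter bad).card ≤ n₀ + P.natDegree := by
    have hsub : S.filter bad ⊆
        Icc 1 n₀ ∪ (P.roots.toFinset.image fun z : ℤ => z.natAbs) := by
      intro n hn
      obtain ⟨hn1, hn2⟩ := mem_filter.1 hn
      have h1 := (mem_Icc.1 (mem_filter.1 hn1).1).1
      rcases hn2 with h | h
      · exact mem_union_left _ (mem_Icc.2 ⟨h1, h⟩)
      · refine mem_union_right _ (mem_image.2 ⟨(n : ℤ), ?_, by simp⟩)
        rw [Multiset.mem_toFinset, mem_roots hP0]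
        exact h
    refine (card_le_card hsub).trans ((card_union_le _ _).trans (add_le_add (by simp) ?_))
    exact card_image_le.trans ((Multiset.toFinset_card_le _).trans (card_roots' P))
  rw [hswap, ← sum_filter_add_sum_filter_not S bad,
    sum_eq_zero (s := S.filter fun n => ¬ bad n) fun n hn =>
      hgood n (mem_filter.1 hn).1 (mem_filter.1 hn).2, add_zero]
  refine (abs_sum_le_sum_abs _ _).trans
    ((sum_le_card_nsmul _ _ _ fun n hn => hone n (mem_filter.1 hn).1).trans ?_)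
  rw [nsmul_eq_mul, mul_assoc (((n₀ + P.natDegree : ℕ) : ℝ))]
  exact mul_le_mul_of_nonneg_right (Nat.cast_le.2 hcardbad) (by positivity)

lemma inv_le_weight {σ : ℝ} (hσ : σ ≤ 1) (_hσ0 : 0 ≤ σ) {D : ℕ} (hD : 1 ≤ D) :
    1 / (D : ℝ) ≤ (D : ℝ) ^ (-(σ / 2)) := by
  rw [one_div, ← Real.rpow_neg_one]
  exact Real.rpow_le_rpow_of_exponent_le (by exact_mod_cast hD) (by linarith)

lemma divisor_sq_le {C₂ C₃ W r D q : ℕ} {σ : ℝ} (hr : 1 ≤ r) (hrW : (W : ℝ) ≤ σ / 2 * r)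
    (hC₂ : 1 ≤ C₂) (hC₃ : 1 ≤ C₃)
    (hdiv : ∀ n : ℕ, 0 < n → n.divisors.card ^ (2 * r) ≤ C₃ * n)
    (hD : 1 ≤ D) (hq : 1 ≤ q) (hqle : (q : ℝ) ≤ C₂ * (D : ℝ) ^ W) :
    (q.divisors.card : ℝ) ^ 2 ≤ (C₃ * C₂ : ℝ) * (D : ℝ) ^ (σ / 2) := by
  have hC1 : (1 : ℝ) ≤ (C₃ * C₂ : ℝ) := by exact_mod_cast Nat.mul_pos hC₃ hC₂
  have hr0 : r ≠ 0 := by omega
  refine (pow_le_pow_iff_left₀ (by positivity) (by positivity) hr0).1 ?_
  calc ((q.divisors.card : ℝ) ^ 2) ^ r = (q.divisors.card : ℝ) ^ (2 * r) := by rw [← pow_mul]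
    _ ≤ (C₃ : ℝ) * q := by exact_mod_cast hdiv q hq
    _ ≤ (C₃ * C₂ : ℝ) * (D : ℝ) ^ W := by rw [mul_assoc]; gcongr
    _ ≤ (C₃ * C₂ : ℝ) ^ r * ((D : ℝ) ^ (σ / 2)) ^ r := by
        refine mul_le_mul (le_self_pow₀ hC1 hr0) ?_ (by positivity) (by positivity)
        rw [← Real.rpow_mul_natCast (by positivity), ← Real.rpow_natCast (D : ℝ) W]
        exact Real.rpow_le_rpow_of_exponent_le (by exact_mod_cast hD) hrW
    _ = ((C₃ * C₂ : ℝ) * (D : ℝ) ^ (σ / 2)) ^ r := (mul_pow _ _ _).symm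

lemma reduce_fraction {k C₂ E D M g q : ℕ} {θ : ℝ} {a : ℤ} (hq : 1 ≤ q)
    (hg : 1 ≤ g) (hgD : g ≤ D) (hM : 1 ≤ M) (hqle : q ≤ C₂ * (D ^ 4) ^ E)
    (ha : |(q : ℝ) * ((g : ℝ) ^ k * θ) - a| ≤
      ((C₂ : ℝ) * ((D ^ 4 : ℕ) : ℝ) ^ E) / (M : ℝ) ^ k) :
    ∃ (q' : ℕ) (a' : ℤ) (β : ℝ), 1 ≤ q' ∧ IsCoprime a' (q' : ℤ) ∧ θ = (a' : ℝ) / q' + β ∧
      (q' : ℝ) ≤ C₂ * (D : ℝ) ^ (4 * E + k) ∧ |β| * (M : ℝ) ^ k ≤ C₂ * ((D : ℝ) ^ 4) ^ E := by
  set Q := q * g ^ k with hQ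
  have hQ1 : 1 ≤ Q := Nat.mul_pos hq (Nat.pow_pos hg)
  set ρ : ℚ := (a : ℚ) / (Q : ℕ) with hρ
  have hden : ρ.den ≤ Q := by
    refine Nat.le_of_dvd hQ1 ?_
    have e : ρ = Rat.divInt a (Q : ℤ) := by rw [hρ, Rat.divInt_eq_div]; push_cast; rfl
    rw [e]
    exact_mod_cast Rat.den_dvd a (Q : ℤ)
  have hQr : (1 : ℝ) ≤ Q := by exact_mod_cast hQ1
  have hρr : (ρ : ℝ) = (a : ℝ) / (Q : ℝ) := by rw [hρ]; push_cast; rfl
  refine ⟨ρ.den, ρ.num, θ - (ρ : ℝ), ρ.den_pos,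
    Int.isCoprime_iff_nat_coprime.2 (by simpa using ρ.reduced),
    by rw [← Rat.cast_def]; ring, ?_, ?_⟩
  · have h1 : ρ.den ≤ C₂ * D ^ (4 * E + k) := by
      refine hden.trans ?_
      calc Q ≤ C₂ * (D ^ 4) ^ E * D ^ k := Nat.mul_le_mul hqle (Nat.pow_le_pow_left hgD k)
        _ = C₂ * D ^ (4 * E + k) := by rw [pow_add, ← pow_mul, mul_assoc]
    exact_mod_cast h1
  · have h2 : (q : ℝ) * ((g : ℝ) ^ k * θ) - a = (Q : ℝ) * (θ - (ρ : ℝ)) := by
      rw [hρr, mul_sub, mul_div_cancel₀ _ (by positivity), hQ]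
      push_cast; ring
    rw [h2, abs_mul, Nat.abs_cast, le_div_iff₀ (by positivity)] at ha
    push_cast at ha
    exact le_trans (mul_le_mul_of_nonneg_right (le_mul_of_one_le_left (abs_nonneg _) hQr)
      (by positivity)) ha

/-- The test polynomial is almost nonnegative everywhere. -/
lemma test_lower {P : ℤ[X]} (hP : P.comp (-X) = -P) (hk : 1 ≤ P.natDegree) {σ : ℝ}
    (hσ : 0 < σ) (hσ1 : σ ≤ 1)
    (hfull : ∀ q : ℕ, 0 < q → ∀ a : ℤ, IsCoprime a (q : ℤ) → 0 ≤ full P σ q a) :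
    ∃ B : ℕ, 5 ≤ B ∧ ∃ C : ℝ, 0 ≤ C ∧ ∀ D : ℕ, 1 ≤ D → ∀ θ : ℝ,
      -(C * (D : ℝ) ^ (-(σ / 2)) * ((D ^ B : ℕ) : ℝ) ^ (2 * P.natDegree)) ≤
        test P σ (D ^ B) D θ := by
  obtain ⟨C₁, hmaj⟩ := dilSum_major hP hk
  obtain ⟨C₂, E, hmin⟩ := dilSum_minor hk
  obtain ⟨C₀, hI⟩ := singInt_le P
  set k := P.natDegree
  obtain ⟨r, hr⟩ : ∃ r : ℕ, ((4 * E + k : ℕ) : ℝ) * (2 / σ) ≤ r := ⟨_, Nat.le_ceil _⟩
  have hrW : ((4 * E + k : ℕ) : ℝ) ≤ σ / 2 * (r + 1 : ℕ) := by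
    have h := mul_le_mul_of_nonneg_left (hr.trans (le_of_lt (lt_add_one (r : ℝ))))
      (show 0 ≤ σ / 2 by linarith)
    rw [show σ / 2 * (((4 * E + k : ℕ) : ℝ) * (2 / σ)) = ((4 * E + k : ℕ) : ℝ) by field_simp] at h
    push_cast at h ⊢
    exact h
  obtain ⟨C₃, hC₃, hdiv⟩ := card_divisors_pow_le (2 * (r + 1))
  refine ⟨8 * E + k + 5, by omega, (C₃ : ℝ) * C₂ * |C₀| + |C₁| * C₂ * (1 + C₂) + 1, by positivity,
    fun D hD θ => ?_⟩
  set M := D ^ (8 * E + k + 5) with hM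
  have hM1 : 1 ≤ M := Nat.one_le_pow _ _ hD
  have hDr : (1 : ℝ) ≤ D := by exact_mod_cast hD
  set η := (D : ℝ) ^ (-(σ / 2)) with hη
  set T := (M : ℝ) ^ (2 * k) with hT
  have hpos : 0 ≤ η * T := by positivity
  have hinv := inv_le_weight hσ1 hσ.le hD
  by_cases hbig : ∃ g, 1 ≤ g ∧ g ≤ D ∧ (g : ℝ) * T / ((D ^ 4 : ℕ) : ℝ) ≤ |dilSum P M g θ|
  · obtain ⟨g, hg1, hgD, hg⟩ := hbig
    obtain ⟨q₀, hq1, hqle, a₀, ha⟩ := hmin M g (D ^ 4) θ hM1 hg1 (Nat.one_le_pow _ _ hD) hg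
    have hC₂1 : 1 ≤ C₂ := by
      rcases Nat.eq_zero_or_pos C₂ with rfl | h
      · simp at hqle; omega
      · exact h
    obtain ⟨q, a, β, hq, hqa, hθ, hq'le, hβle⟩ := reduce_fraction hq1 hg1 hgD hM1 hqle ha
    set C₄ := |C₁| * C₂ * (1 + C₂) with hC₄
    have hTB : (M : ℝ) ^ (2 * k - 1) * (D : ℝ) ^ (8 * E + k + 5) = T := by
      rw [hT, show (D : ℝ) ^ (8 * E + k + 5) = (M : ℝ) by rw [hM, Nat.cast_pow], ← pow_succ,
        Nat.sub_add_cancel (by omega)]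
    have happ : ∀ g', 1 ≤ g' → g' ≤ D →
        |dilSum P M g' θ - gauss P q a g' * singInt P M β| ≤ C₄ * T / (D : ℝ) ^ 3 := by
      intro g' hg1' hgD'
      refine (hmaj M g' q hM1 hg1' hq a 0 β θ (by rw [hθ]; push_cast; ring)).trans ?_
      have h1 : (1 + |β| * (M : ℝ) ^ k) ≤ (1 + (C₂ : ℝ)) * ((D : ℝ) ^ 4) ^ E := by
        nlinarith [one_le_pow₀ (n := E) (one_le_pow₀ (n := 4) hDr)]
      calc C₁ * (g' : ℝ) ^ 2 * q * (1 + |β| * (M : ℝ) ^ k) * (M : ℝ) ^ (2 * k - 1)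
          ≤ |C₁| * (D : ℝ) ^ 2 * (C₂ * (D : ℝ) ^ (4 * E + k)) *
              ((1 + (C₂ : ℝ)) * ((D : ℝ) ^ 4) ^ E) * (M : ℝ) ^ (2 * k - 1) := by
            gcongr
            · exact le_abs_self _
        _ = C₄ * ((M : ℝ) ^ (2 * k - 1) * (D : ℝ) ^ (8 * E + k + 5)) / (D : ℝ) ^ 3 := by
            rw [hC₄, ← pow_mul, eq_div_iff (by positivity)]
            ring
        _ = _ := by rw [hTB]
    have h := test_approx P hσ.le _ happ
    rw [comb_eq_trunc] at h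
    have htr : -((C₃ * C₂ : ℝ) * η) ≤ trunc P σ D q a := by
      have h1 := full_sub_trunc_le P hσ.le (D := D) hD hq a
      have h0 := hfull q hq a hqa
      have h2 : (q.divisors.card : ℝ) ^ 2 * (D : ℝ) ^ (-σ) ≤ (C₃ * C₂ : ℝ) * η := by
        refine (mul_le_mul_of_nonneg_right
          (divisor_sq_le (by omega) hrW hC₂1 hC₃ hdiv hD hq hq'le) (by positivity)).trans_eq ?_
        rw [mul_assoc, hη, ← Real.rpow_add (by linarith)]
        congr 2
        ring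
      linarith
    have hI0 := singInt_nonneg hP M β
    have hI1 : singInt P M β ≤ |C₀| * T :=
      (hI M β hM1).trans (mul_le_mul_of_nonneg_right (le_abs_self _) (by positivity))
    have hmainge : -((C₃ * C₂ : ℝ) * |C₀| * η * T) ≤ trunc P σ D q a * singInt P M β := by
      have := mul_le_mul_of_nonneg_right htr hI0
      have := mul_le_mul_of_nonneg_left hI1 (show (0 : ℝ) ≤ (C₃ * C₂ : ℝ) * η by positivity)
      linarith
    have herr : (D : ℝ) ^ 2 * (C₄ * T / (D : ℝ) ^ 3) ≤ C₄ * η * T := by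
      calc (D : ℝ) ^ 2 * (C₄ * T / (D : ℝ) ^ 3) = C₄ * T * (1 / D) := by field_simp
        _ ≤ C₄ * T * η := mul_le_mul_of_nonneg_left hinv (by positivity)
        _ = _ := by ring
    have := (abs_le.1 h).1
    linarith
  · push Not at hbig
    have h := test_approx P hσ.le (M := M) (D := D) (θ := θ) (B := T / (D : ℝ) ^ 3) (fun _ => 0)
      fun g hg1 hgD => by
        rw [sub_zero]
        refine (hbig g hg1 hgD).le.trans ?_
        push_cast
        calc (g : ℝ) * T / (D : ℝ) ^ 4 ≤ (D : ℝ) * T / (D : ℝ) ^ 4 := by gcongr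
          _ = _ := by field_simp
    simp only [mul_zero, sum_const_zero, sub_zero] at h
    have herr : (D : ℝ) ^ 2 * (T / (D : ℝ) ^ 3) ≤ η * T := by
      calc (D : ℝ) ^ 2 * (T / (D : ℝ) ^ 3) = T * (1 / D) := by field_simp
        _ ≤ _ := by rw [mul_comm η]; exact mul_le_mul_of_nonneg_left hinv (by positivity)
    have := (abs_le.1 h).1
    have h3 : 0 ≤ ((C₃ : ℝ) * C₂ * |C₀| + |C₁| * C₂ * (1 + C₂)) * (η * T) := by positivity
    linarith

/-- The test polynomial is large at the origin. -/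
lemma test_zero {P : ℤ[X]} (hP : P.comp (-X) = -P) (hk : 1 ≤ P.natDegree) {σ : ℝ} (hσ : 0 ≤ σ) :
    ∃ D₀ : ℝ, 1 ≤ D₀ ∧ ∀ B D : ℕ, 5 ≤ B → 1 ≤ D → D₀ ≤ D →
      ((D ^ B : ℕ) : ℝ) ^ (2 * P.natDegree) / 16 ≤ test P σ (D ^ B) D 0 := by
  obtain ⟨C₁, hmaj⟩ := dilSum_major hP hk
  refine ⟨16 * |C₁| + 2 * coeffSum P + 1, by
    linarith [abs_nonneg C₁, (Nat.cast_nonneg (coeffSum P) : (0 : ℝ) ≤ coeffSum P)],
    fun B D hB hD hlarge => ?_⟩
  set k := P.natDegree with hkdef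
  set M := D ^ B with hM
  have hM1 : 1 ≤ M := Nat.one_le_pow _ _ hD
  have hDr : (1 : ℝ) ≤ D := by exact_mod_cast hD
  set T := (M : ℝ) ^ (2 * k) with hT
  have hTB : (M : ℝ) ^ (2 * k - 1) * (D : ℝ) ^ B = T := by
    rw [hT, show (D : ℝ) ^ B = (M : ℝ) by rw [hM, Nat.cast_pow], ← pow_succ,
      Nat.sub_add_cancel (by omega)]
  have h := test_approx P hσ (M := M) (D := D) (θ := 0)
    (fun g => gauss P 1 0 g * singInt P M 0)
    (B := |C₁| * T / (D : ℝ) ^ 3) fun g hg1 hgD => by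
      refine (hmaj M g 1 hM1 hg1 le_rfl 0 0 0 0 (by simp)).trans ?_
      calc C₁ * (g : ℝ) ^ 2 * ((1 : ℕ) : ℝ) * (1 + |(0 : ℝ)| * (M : ℝ) ^ k) * (M : ℝ) ^ (2 * k - 1)
          ≤ |C₁| * (D : ℝ) ^ 2 * (M : ℝ) ^ (2 * k - 1) := by
            simp only [abs_zero, zero_mul, add_zero, Nat.cast_one, mul_one]
            gcongr
            exact le_abs_self _
        _ ≤ |C₁| * T / (D : ℝ) ^ 3 := by
            rw [le_div_iff₀ (by positivity), ← hTB]
            calc |C₁| * (D : ℝ) ^ 2 * (M : ℝ) ^ (2 * k - 1) * (D : ℝ) ^ 3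
                = |C₁| * ((M : ℝ) ^ (2 * k - 1) * (D : ℝ) ^ 5) := by ring
              _ ≤ _ := by gcongr
  rw [comb_eq_trunc, trunc_one P σ hD, one_mul, singInt_zero hP] at h
  have hMbig : 2 * coeffSum P + 1 ≤ M := by
    have : ((2 * coeffSum P + 1 : ℕ) : ℝ) ≤ (D : ℝ) := by push_cast; linarith [abs_nonneg C₁]
    have h' : 2 * coeffSum P + 1 ≤ D := by exact_mod_cast this
    exact h'.trans (Nat.le_self_pow (by omega) _)
  have hval : T / 8 ≤ (aeval (M : ℝ) P) ^ 2 / 2 := by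
    have h1 := half_pow_le P hk hMbig
    have h2 : ((M : ℝ) ^ k / 2) ^ 2 ≤ |aeval (M : ℝ) P| ^ 2 := by gcongr
    rw [sq_abs, div_pow, ← pow_mul, mul_comm k 2] at h2
    rw [hT]
    linarith
  have herr : (D : ℝ) ^ 2 * (|C₁| * T / (D : ℝ) ^ 3) ≤ T / 16 := by
    rw [show (D : ℝ) ^ 2 * (|C₁| * T / (D : ℝ) ^ 3) = |C₁| * T / D by field_simp,
      div_le_div_iff₀ (by positivity) (by positivity)]
    nlinarith [mul_le_mul_of_nonneg_left hlarge (show (0 : ℝ) ≤ T by positivity),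
      mul_nonneg (show (0 : ℝ) ≤ T by positivity) (Nat.cast_nonneg (coeffSum P) : (0 : ℝ) ≤ coeffSum P),
      show (0 : ℝ) ≤ T by positivity]
  have := (abs_le.1 h).1
  linarith

/-- The key inequality at the scale `M = D ^ B`. -/
lemma key {P : ℤ[X]} (hP : P.comp (-X) = -P) (hk : 1 ≤ P.natDegree) (n₀ : ℕ) :
    ∃ σ : ℝ, 0 < σ ∧ ∃ B : ℕ, 1 ≤ B ∧ ∃ C : ℝ, ∀ D : ℕ, 1 ≤ D → ∀ A : Finset ℕ,
      A ⊆ Icc 1 ((D ^ B) ^ P.natDegree) →
      (∀ a ∈ A, ∀ b ∈ A, ∀ n : ℕ, n₀ < n → P.eval (n : ℤ) ≠ 0 →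
        (a : ℤ) - (b : ℤ) ≠ P.eval (n : ℤ)) →
      (A.card : ℝ) ≤ C * (D : ℝ) ^ (-σ) * ((D ^ B) ^ P.natDegree : ℕ) := by
  have hP0 : P ≠ 0 := fun h => by simp [h] at hk
  obtain ⟨σ, hσ, hσ1, hfull⟩ := full_nonneg hP hP0
  obtain ⟨B, hB, C, hC, hlow⟩ := test_lower hP hk hσ hσ1 hfull
  obtain ⟨D₀, hD₀, hzero⟩ := test_zero hP hk hσ.le
  obtain ⟨Cw, hCw⟩ := exists_weight_bound P hk
  set k := P.natDegree with hkdef
  set C' : ℝ := C + ((n₀ + k : ℕ) : ℝ) * Cw with hC'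
  refine ⟨σ / 2, by linarith, B, by omega, max (16 * ((coeffSum P + 2 : ℕ) : ℝ) * C') D₀,
    fun D hD A hA hfree => ?_⟩
  set M := D ^ B with hM
  set η := (D : ℝ) ^ (-(σ / 2)) with hη
  have hη0 : 0 ≤ η := by positivity
  have hDr : (1 : ℝ) ≤ D := by exact_mod_cast hD
  have hinv := inv_le_weight hσ1 hσ.le hD
  have hM1 : 1 ≤ M := Nat.one_le_pow _ _ hD
  rw [Nat.cast_pow]
  rcases lt_or_ge (D : ℝ) D₀ with hsmall | hlarge
  · have hcard : (A.card : ℝ) ≤ (M : ℝ) ^ k := by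
      have := (card_le_card hA).trans_eq (Nat.card_Icc 1 (M ^ k))
      rw [Nat.add_sub_cancel] at this
      exact_mod_cast this
    refine hcard.trans ?_
    have h1 : 1 ≤ max (16 * ((coeffSum P + 2 : ℕ) : ℝ) * C') D₀ * η := by
      have h2 : 1 ≤ D₀ * (1 / (D : ℝ)) := by
        rw [mul_one_div, le_div_iff₀ (by positivity)]; linarith
      exact h2.trans (mul_le_mul (le_max_right _ _) hinv (by positivity)
        (le_trans (by linarith) (le_max_right _ _)))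
    exact le_mul_of_one_le_left (by positivity) h1
  rcases Nat.eq_zero_or_pos A.card with hA0 | hA0
  · rw [hA0, Nat.cast_zero]
    exact mul_nonneg (mul_nonneg (le_trans (by linarith) (le_max_right _ _)) hη0) (by positivity)
  set T := (M : ℝ) ^ (2 * k) with hT
  set L := period P M with hL
  have : NeZero L := ⟨by rw [hL, period]; positivity⟩
  set W := (Cw : ℝ) * (M : ℝ) ^ (2 * k - 1) with hW
  -- the energy pairs to almost zero
  have hpair : |∑ j ∈ range L, energy A L j * test P σ M D ((j : ℝ) / L)| ≤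
      ((n₀ + k : ℕ) : ℝ) * Cw * η * T * ((L : ℝ) * A.card) := by
    have e : ∑ j ∈ range L, energy A L j * test P σ M D ((j : ℝ) / L) =
        ∑ d ∈ Icc 1 D, (d : ℝ) ^ (-σ) * ∑ x ∈ d.divisorsAntidiagonal, (μ x.1 : ℝ) *
          (∑ j ∈ range L, energy A L j * dilSum P M x.2 ((j : ℝ) / L)) := by
      simp only [test, mul_sum]
      rw [sum_comm]
      refine sum_congr rfl fun d _ => ?_
      rw [sum_comm]
      exact sum_congr rfl fun x _ => sum_congr rfl fun j _ => by ring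
    rw [e]
    refine (comb_le hσ.le (fun g => ∑ j ∈ range L, energy A L j * dilSum P M g ((j : ℝ) / L))
      (B := ((n₀ + k : ℕ) : ℝ) * ((D : ℝ) * W) * ((L : ℝ) * A.card)) fun g _ hgD => ?_).trans ?_
    · refine (energy_dilSum_le n₀ hM1
        (fun n hn => hCw M n hM1 (Nat.cast_nonneg n) (by exact_mod_cast (mem_Icc.1 hn).2))
        hA hfree hP0).trans ?_
      rw [hW]
      gcongr
    · have hTB : (M : ℝ) ^ (2 * k - 1) * (D : ℝ) ^ B = T := by
        rw [hT, show (D : ℝ) ^ B = (M : ℝ) by rw [hM, Nat.cast_pow], ← pow_succ,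
          Nat.sub_add_cancel (by omega)]
      have hmain : (D : ℝ) ^ 3 * (M : ℝ) ^ (2 * k - 1) ≤ η * T := by
        calc (D : ℝ) ^ 3 * (M : ℝ) ^ (2 * k - 1)
            = 1 / (D : ℝ) * ((M : ℝ) ^ (2 * k - 1) * (D : ℝ) ^ 4) := by field_simp
          _ ≤ η * T := by
              refine mul_le_mul hinv ?_ (by positivity) hη0
              rw [← hTB]
              exact mul_le_mul_of_nonneg_left (pow_le_pow_right₀ hDr (by omega)) (by positivity)
      calc (D : ℝ) ^ 2 * (((n₀ + k : ℕ) : ℝ) * ((D : ℝ) * W) * ((L : ℝ) * A.card))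
          = ((n₀ + k : ℕ) : ℝ) * Cw * ((D : ℝ) ^ 3 * (M : ℝ) ^ (2 * k - 1)) *
              ((L : ℝ) * A.card) := by rw [hW]; ring
        _ ≤ ((n₀ + k : ℕ) : ℝ) * Cw * (η * T) * ((L : ℝ) * A.card) := by gcongr
        _ = _ := by ring
  have hen : ∑ j ∈ range L, energy A L j = L * A.card := by
    simp only [energy]
    rw [sum_comm]
    calc ∑ a ∈ A, ∑ j ∈ range L, ∑ b ∈ A,
          Real.cos (2 * Real.pi * (((a : ℤ) - b : ℤ) : ℝ) * j / L)
        = ∑ a ∈ A, (L : ℝ) := by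
          refine sum_congr rfl fun a ha => ?_
          rw [sum_comm, sum_eq_single_of_mem a ha]
          · rw [sum_cos_range, if_pos (by simp)]
          · intro b hb hne
            rw [sum_cos_range, if_neg]
            rw [ZMod.intCast_zmod_eq_zero_iff_dvd]
            intro hd
            have ha' := mem_Icc.1 (hA ha)
            have hb' := mem_Icc.1 (hA hb)
            have hLle : M ^ k ≤ L := by rw [hL, period]; exact Nat.le_mul_of_pos_left _ (by omega)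
            have := Int.eq_zero_of_abs_lt_dvd hd (abs_lt.2 ⟨by omega, by omega⟩)
            omega
      _ = _ := by simp [mul_comm]
  have hsum : (A.card : ℝ) ^ 2 * (T / 16) ≤ C' * η * T * (L * A.card) := by
    have hterm : ∀ j : ℕ, 0 ≤ energy A L j * (test P σ M D ((j : ℝ) / L) + C * η * T) := fun j =>
      mul_nonneg (energy_nonneg _ _ _) (by have := hlow D hD ((j : ℝ) / L); linarith)
    have h1 : (A.card : ℝ) ^ 2 * (T / 16) ≤
        energy A L 0 * (test P σ M D (((0 : ℕ) : ℝ) / L) + C * η * T) := by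
      have he : energy A L 0 = (A.card : ℝ) ^ 2 := by simp [energy, sq]
      rw [he, Nat.cast_zero, zero_div]
      refine mul_le_mul_of_nonneg_left ?_ (sq_nonneg _)
      have := hzero B D hB hD hlarge
      have h0 : 0 ≤ C * η * T := by positivity
      linarith
    have h2 := single_le_sum (f := fun j => energy A L j * (test P σ M D ((j : ℝ) / L) + C * η * T))
      (fun j _ => hterm j) (mem_range.2 (NeZero.pos L))
    simp only [mul_add, sum_add_distrib, ← sum_mul, hen] at h2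
    have h3 := (abs_le.1 hpair).2
    rw [hC']
    nlinarith
  have hfin : (A.card : ℝ) ≤ 16 * ((coeffSum P + 2 : ℕ) : ℝ) * C' * η * (M : ℝ) ^ k := by
    have hLr : (L : ℝ) = ((coeffSum P + 2 : ℕ) : ℝ) * (M : ℝ) ^ k := by
      rw [hL, period]; push_cast; ring
    rw [hLr] at hsum
    refine le_of_mul_le_mul_right ?_ (show 0 < T / 16 * (A.card : ℝ) by positivity)
    linarith
  refine hfin.trans ?_
  gcongr
  exact le_max_left _ _

/-- The power saving for odd polynomials. -/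
theorem power_saving {P : ℤ[X]} (hP : P.comp (-X) = -P) (hk : 1 ≤ P.natDegree) (n₀ : ℕ) :
    ∃ c : ℝ, 0 < c ∧ ∃ C : ℝ, ∀ N : ℕ, 1 ≤ N → ∀ A : Finset ℕ, A ⊆ Icc 1 N →
      (∀ a ∈ A, ∀ b ∈ A, ∀ n : ℕ, n₀ < n → P.eval (n : ℤ) ≠ 0 →
        (a : ℤ) - (b : ℤ) ≠ P.eval (n : ℤ)) →
      (A.card : ℝ) ≤ C * (N : ℝ) ^ (1 - c) := by
  obtain ⟨σ, hσ, B, hB, C, hkey⟩ := key hP hk n₀
  set m := B * P.natDegree with hm
  have hm1 : 1 ≤ m := Nat.mul_pos hB hk
  set c := σ / m with hc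
  refine ⟨c, by positivity, |C| * 2 ^ m, fun N hN A hA hfree => ?_⟩
  have hex : ∃ D : ℕ, N ≤ D ^ m := ⟨N, Nat.le_self_pow (by omega) N⟩
  set D := Nat.find hex with hD
  have hDN : N ≤ D ^ m := Nat.find_spec hex
  have hD1 : 1 ≤ D := by
    rcases Nat.eq_zero_or_pos D with h | h
    · rw [h, zero_pow (by omega)] at hDN; omega
    · exact h
  have hup : D ^ m ≤ 2 ^ m * N := by
    rcases Nat.lt_or_ge D 2 with h | h
    · have : D = 1 := by omega
      rw [this, one_pow]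
      exact Nat.mul_pos (Nat.two_pow_pos m) hN
    · have h1 : ¬ N ≤ (D - 1) ^ m := Nat.find_min hex (by omega)
      calc D ^ m ≤ (2 * (D - 1)) ^ m := Nat.pow_le_pow_left (by omega) m
        _ = 2 ^ m * (D - 1) ^ m := mul_pow _ _ _
        _ ≤ _ := Nat.mul_le_mul_left _ (by omega)
  have hpow : (D ^ B) ^ P.natDegree = D ^ m := by rw [hm, pow_mul]
  have h := hkey D hD1 A (hA.trans (Icc_subset_Icc le_rfl (hpow ▸ hDN))) hfree
  rw [hpow] at h
  have hNr : (0 : ℝ) < N := by exact_mod_cast hN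
  have hDη : (D : ℝ) ^ (-σ) ≤ (N : ℝ) ^ (-c) := by
    have e : (D : ℝ) ^ (-σ) = (((D ^ m : ℕ) : ℝ)) ^ (-c) := by
      rw [Nat.cast_pow, ← Real.rpow_natCast_mul (Nat.cast_nonneg _), hc]
      congr 1
      field_simp
    rw [e]
    exact Real.rpow_le_rpow_of_nonpos hNr (by exact_mod_cast hDN) (neg_nonpos.2 (by positivity))
  calc (A.card : ℝ) ≤ C * (D : ℝ) ^ (-σ) * ((D ^ m : ℕ) : ℝ) := h
    _ ≤ |C| * (N : ℝ) ^ (-c) * (2 ^ m * (N : ℝ)) := by
        refine mul_le_mul (mul_le_mul (le_abs_self C) hDη (by positivity) (abs_nonneg C))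
          (by exact_mod_cast hup) (by positivity) (by positivity)
    _ = |C| * 2 ^ m * (N : ℝ) ^ (1 - c) := by
        rw [sub_eq_add_neg, Real.rpow_add hNr, Real.rpow_one]; ring

end Vale.Agent.P042.Sym
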